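import Vale.Agent.P193.Clapham.Machine.Prog

/-!
P193, Clapham, computation layer: primitive recursive functions are computed by register programs.
-/

namespace Vale.Agent.P193.Clapham.Mach

open List.Vector (ofFn get_ofFn get_tail)

/-- `P` adds `f` of the registers `a` to the clean register `o`, using scratch registers from `b`. -/
structure Computes {n : ℕ} (f : List.Vector ℕ n → ℕ) (a : Fin n → ℕ) (o b : ℕ) (P : Prog) :
    Prop where
  wf : P.WF
  regs : ∀ x ∈ P.regs, (∃ i, x = a i) ∨ x = o ∨ b ≤ x
  eval : ∀ σ : Regs, σ o = 0 → (∀ x, b ≤ x → σ x = 0) →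
    P.eval σ = Function.update σ o (f (ofFn fun i => σ (a i)))

lemma regs_move (r s x : ℕ) : x ∈ (move r s).regs ↔ x = r ∨ x = s := by
  simp [move, Prog.regs]

lemma wf_move {r s : ℕ} (h : r ≠ s) : (move r s).WF := ⟨by simp [Prog.regs, h], trivial⟩

lemma wf_dup {r s t : ℕ} (hrs : r ≠ s) (hrt : r ≠ t) : (dup r s t).WF :=
  ⟨⟨by simp [Prog.regs, hrs, hrt], trivial, trivial⟩, wf_move hrt.symm⟩

lemma regs_dup (r s t x : ℕ) : x ∈ (dup r s t).regs ↔ x = r ∨ x = s ∨ x = t := by
  simp [dup, Prog.regs, move]; tauto

lemma ofFn_tail {α : Type*} {n : ℕ} (h : Fin (n + 1) → α) :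
    (ofFn h).tail = ofFn fun i => h i.succ :=
  List.Vector.ext fun i => by rw [get_tail, get_ofFn, get_ofFn]; rfl

lemma ofFn_head {α : Type*} {n : ℕ} (h : Fin (n + 1) → α) : (ofFn h).head = h 0 := by
  rw [← List.Vector.get_zero, get_ofFn]

/-- A family of programs with separate outputs, run in turn. -/
lemma eval_family {n m : ℕ} {g : Fin n → List.Vector ℕ m → ℕ} {a : Fin m → ℕ} {b : ℕ}
    {Pg : Fin n → Prog} (hg : ∀ i, Computes (g i) a (b + i) (b + n) (Pg i)) (ha : ∀ j, a j < b) :
    ∀ L : List (Fin n), L.Nodup → ∀ σ : Regs, (∀ x, b + n ≤ x → σ x = 0) →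
      (∀ i ∈ L, σ (b + i) = 0) →
      (∀ i ∈ L, (Prog.seqs (L.map Pg)).eval σ (b + i) = g i (ofFn fun j => σ (a j))) ∧
      ∀ x : ℕ, (∀ i ∈ L, x ≠ b + i) → (Prog.seqs (L.map Pg)).eval σ x = σ x := by
  intro L
  induction L with
  | nil => exact fun _ σ _ _ => ⟨fun i hi => absurd hi (by simp), fun x _ => rfl⟩
  | cons k L ih =>
    intro hL σ hclean hzero
    rw [List.nodup_cons] at hL
    set v := g k (ofFn fun j => σ (a j)) with hv
    have hk : (Pg k).eval σ = Function.update σ (b + k) v :=
      (hg k).eval σ (hzero k List.mem_cons_self) hclean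
    have hne : ∀ i ∈ L, b + (i : ℕ) ≠ b + k := fun i hi h =>
      hL.1 (by rwa [show k = i from Fin.ext (by omega)])
    obtain ⟨h1, h2⟩ := ih hL.2 (Function.update σ (b + k) v)
      (fun x hx => by
        rw [Function.update_of_ne (by have := k.2; omega)]
        exact hclean x hx)
      (fun i hi => by
        rw [Function.update_of_ne (hne i hi)]
        exact hzero i (List.mem_cons_of_mem _ hi))
    have hin : (ofFn fun j => Function.update σ (b + k) v (a j)) = ofFn fun j => σ (a j) := by
      congr 1
      funext j
      exact Function.update_of_ne (by have := ha j; omega) _ _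
    constructor
    · intro i hi
      show (Prog.seqs (L.map Pg)).eval ((Pg k).eval σ) _ = _
      rw [hk]
      rcases List.mem_cons.1 hi with rfl | hi
      · rw [h2 _ fun i' hi' h => hne i' hi' h.symm, Function.update_self]
      · rw [h1 i hi, hin]
    · intro x hx
      show (Prog.seqs (L.map Pg)).eval ((Pg k).eval σ) _ = _
      rw [hk, h2 x fun i hi => hx i (List.mem_cons_of_mem _ hi),
        Function.update_of_ne (hx k List.mem_cons_self)]

theorem computes {n : ℕ} {f : List.Vector ℕ n → ℕ} (hf : Nat.Primrec' f) :
    ∀ (a : Fin n → ℕ) (o b : ℕ), (∀ i, a i < b ∧ a i ≠ o) → o < b → ∃ P, Computes f a o b P := by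
  induction hf with
  | zero =>
    intro a o b _ _
    exact ⟨.skip, trivial, fun x hx => absurd hx (by simp [Prog.regs]),
      fun σ ho _ => by rw [← ho, Function.update_eq_self]; rfl⟩
  | succ =>
    intro a o b ha ho
    obtain ⟨h1, h2⟩ := ha 0
    refine ⟨.seq (dup (a 0) o b) (.inc o), ⟨wf_dup h2 (by omega), trivial⟩, fun x hx => ?_,
      fun σ hσo hσb => ?_⟩
    · simp only [Prog.regs, List.mem_append, regs_dup, List.mem_singleton] at hx
      rcases hx with (h | h | h) | h
      · exact Or.inl ⟨0, h⟩
      · exact Or.inr (Or.inl h)
      · exact Or.inr (Or.inr h.ge)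
      · exact Or.inr (Or.inl h)
    · show Prog.eval (.inc o) ((dup (a 0) o b).eval σ) = _
      rw [eval_dup h2 (by omega) (by omega) σ (hσb b le_rfl), hσo, zero_add, ofFn_head]
      simp [Prog.eval]
  | @get n i =>
    intro a o b ha ho
    obtain ⟨h1, h2⟩ := ha i
    refine ⟨dup (a i) o b, wf_dup h2 (by omega), fun x hx => ?_, fun σ hσo hσb => ?_⟩
    · rcases (regs_dup _ _ _ _).1 hx with h | h | h
      · exact Or.inl ⟨i, h⟩
      · exact Or.inr (Or.inl h)
      · exact Or.inr (Or.inr h.ge)
    · rw [eval_dup h2 (by omega) (by omega) σ (hσb b le_rfl), hσo, zero_add, get_ofFn]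
  | @comp m n f g _ _ ihf ihg =>
    intro a o b ha ho
    choose Pg hPg using fun i : Fin n => ihg i a (b + i) (b + n)
      (fun j => by have := ha j; omega) (by omega)
    obtain ⟨Pf, hPf⟩ := ihf (fun i : Fin n => b + i) o (b + n)
      (fun i => by constructor <;> omega) (by omega)
    let Lc := List.ofFn fun i : Fin n => b + (i : ℕ)
    have hLc : ∀ x, x ∈ Lc ↔ ∃ i : Fin n, b + (i : ℕ) = x := fun x => by simp [Lc, List.mem_ofFn]
    refine ⟨.seq (Prog.seqs ((List.finRange n).map Pg)) (.seq Pf (clrs Lc)),
      ⟨Prog.wf_seqs fun P hP => ?_, hPf.wf, wf_clrs _⟩, fun x hx => ?_, fun σ hσo hσb => ?_⟩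
    · obtain ⟨i, -, rfl⟩ := List.mem_map.1 hP
      exact (hPg i).wf
    · simp only [Prog.regs, List.mem_append, Prog.regs_seqs, regs_clrs, hLc] at hx
      rcases hx with hx | hx | ⟨i, rfl⟩
      · simp only [List.mem_flatMap, List.mem_map] at hx
        obtain ⟨_, ⟨i, -, rfl⟩, hx⟩ := hx
        rcases (hPg i).regs x hx with h | h | h
        · exact Or.inl h
        · exact Or.inr (Or.inr (by omega))
        · exact Or.inr (Or.inr (by omega))
      · rcases hPf.regs x hx with ⟨i, h⟩ | h | h
        · exact Or.inr (Or.inr (by omega))
        · exact Or.inr (Or.inl h)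
        · exact Or.inr (Or.inr (by omega))
      · exact Or.inr (Or.inr (by omega))
    · obtain ⟨h1, h2⟩ := eval_family hPg (fun j => (ha j).1) (List.finRange n)
        (List.nodup_finRange n) σ (fun x hx => hσb x (by omega)) (fun i _ => hσb _ (by omega))
      show (clrs Lc).eval (Pf.eval ((Prog.seqs ((List.finRange n).map Pg)).eval σ)) = _
      generalize hρ : (Prog.seqs ((List.finRange n).map Pg)).eval σ = ρ at h1 h2 ⊢
      have ho' : ρ o = 0 := (h2 o fun i _ => by omega).trans hσo
      have hb' : ∀ x, b + n ≤ x → ρ x = 0 := fun x hx =>
        (h2 x fun i _ => by omega).trans (hσb x (by omega))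
      rw [hPf.eval ρ ho' hb',
        show (fun i : Fin n => ρ (b + i)) = fun i => g i (ofFn fun j => σ (a j)) from
          funext fun i => h1 i (List.mem_finRange i)]
      funext x
      rw [eval_clrs]
      by_cases hx : x ∈ Lc
      · obtain ⟨i, rfl⟩ := (hLc x).1 hx
        rw [if_pos hx, Function.update_of_ne (by omega), hσb _ (by omega)]
      · rw [if_neg hx]
        by_cases hxo : x = o
        · subst hxo; simp
        · rw [Function.update_of_ne hxo, Function.update_of_ne hxo,
            h2 x fun i _ h => hx ((hLc x).2 ⟨i, h.symm⟩)]
  | @prec n f g _ _ ihf ihg =>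
    intro a o b ha ho
    let a' : Fin (n + 2) → ℕ := Fin.cases (b + 1) (Fin.cases (b + 2) fun i => a i.succ)
    have ha' : ∀ i, a' i = b + 1 ∨ a' i = b + 2 ∨ ∃ j, a' i = a j := by
      intro i
      induction i using Fin.cases with
      | zero => exact Or.inl rfl
      | succ i =>
        induction i using Fin.cases with
        | zero => exact Or.inr (Or.inl rfl)
        | succ i => exact Or.inr (Or.inr ⟨i.succ, rfl⟩)
    obtain ⟨Pf, hPf⟩ := ihf (fun i => a i.succ) (b + 2) (b + 4)
      (fun i => by have := ha i.succ; constructor <;> omega) (by omega)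
    obtain ⟨Pg, hPg⟩ := ihg a' (b + 3) (b + 4) (fun i => by
      rcases ha' i with h | h | ⟨j, h⟩
      · omega
      · omega
      · have := ha j; omega) (by omega)
    let body := Prog.seqs [Pg, clr (b + 2), move (b + 3) (b + 2), .inc (b + 1)]
    have hcnt : b ∉ body.regs := by
      intro h
      simp only [body, Prog.regs_seqs, List.flatMap_cons, List.flatMap_nil, List.append_nil,
        List.mem_append, clr, Prog.regs, List.mem_cons, List.not_mem_nil, or_false,
        regs_move] at h
      rcases h with h | h | h | h
      · rcases hPg.regs b h with ⟨i, hi⟩ | h' | h'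
        · rcases ha' i with e | e | ⟨j, e⟩
          · omega
          · omega
          · have := ha j; omega
        · omega
        · omega
      all_goals omega
    have hin : ∀ x ∈ Pg.regs, (∃ i, x = a i) ∨ x = o ∨ b ≤ x := fun x hx => by
      rcases hPg.regs x hx with ⟨i, rfl⟩ | h | h
      · rcases ha' i with e | e | ⟨j, e⟩
        · exact Or.inr (Or.inr (by omega))
        · exact Or.inr (Or.inr (by omega))
        · exact Or.inl ⟨j, e⟩
      · exact Or.inr (Or.inr (by omega))
      · exact Or.inr (Or.inr (by omega))
    refine ⟨Prog.seqs [dup (a 0) b (b + 4), Pf, .loop b body, clr (b + 1), move (b + 2) o],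
      ⟨wf_dup (by have := ha 0; omega) (by have := ha 0; omega), hPf.wf,
        ⟨hcnt, hPg.wf, ⟨by simp [Prog.regs], trivial⟩, wf_move (by omega), trivial, trivial⟩,
        ⟨by simp [Prog.regs], trivial⟩, wf_move (by omega), trivial⟩, fun x hx => ?_,
      fun σ hσo hσb => ?_⟩
    · simp only [Prog.regs_seqs, List.flatMap_cons, List.flatMap_nil, List.append_nil,
        List.mem_append, clr, Prog.regs, List.mem_cons, List.not_mem_nil, or_false,
        regs_dup, regs_move, body] at hx
      rcases hx with (h | h | h) | h | (h | h | h | (h | h) | h) | h | h | h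
      · exact Or.inl ⟨0, h⟩
      · exact Or.inr (Or.inr h.ge)
      · exact Or.inr (Or.inr (by omega))
      · rcases hPf.regs x h with ⟨i, h'⟩ | h' | h'
        · exact Or.inl ⟨_, h'⟩
        · exact Or.inr (Or.inr (by omega))
        · exact Or.inr (Or.inr (by omega))
      · exact Or.inr (Or.inr h.ge)
      · exact hin x h
      all_goals first
        | exact Or.inr (Or.inl h)
        | exact Or.inr (Or.inr (by omega))
    · have ha0 := ha 0
      set t : List.Vector ℕ n := ofFn fun i => σ (a i.succ) with ht
      set R : ℕ → ℕ := fun j => j.rec (f t) fun y IH => g (y ::ᵥ IH ::ᵥ t) with hR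
      have key : ∀ (k j : ℕ) (ρ : Regs), ρ b = k → ρ (b + 1) = j → ρ (b + 2) = R j →
          ρ (b + 3) = 0 → (∀ x, b + 4 ≤ x → ρ x = 0) → (∀ i : Fin n, ρ (a i.succ) = σ (a i.succ)) →
          ∀ x, Prog.loopN b body.eval k ρ x =
            if x = b then 0 else if x = b + 1 then j + k else if x = b + 2 then R (j + k)
            else ρ x := by
        intro k
        induction k with
        | zero =>
          intro j ρ h0 h1 h2 _ _ _ x
          show ρ x = _
          split_ifs <;> simp_all
        | succ k ih =>
          intro j ρ h0 h1 h2 h3 h4 h5 x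
          have hg : Pg.eval (Function.update ρ b k) =
              Function.update (Function.update ρ b k) (b + 3) (R (j + 1)) := by
            rw [hPg.eval _ (by simpa using h3) fun y hy => by
              rw [Function.update_of_ne (by omega)]; exact h4 y hy]
            congr 1
            show _ = g (j ::ᵥ R j ::ᵥ t)
            refine congrArg g (List.Vector.ext fun i => ?_)
            rw [get_ofFn]
            induction i using Fin.cases with
            | zero => simp [a', h1]
            | succ i =>
              induction i using Fin.cases with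
              | zero =>
                simp only [a', Fin.cases_succ, Fin.cases_zero, List.Vector.get_cons_succ]
                rw [List.Vector.get_zero, List.Vector.head_cons, Function.update_of_ne (by omega), h2]
              | succ i =>
                have := ha i.succ
                simp [a', ht, h5 i, Function.update_of_ne (show a i.succ ≠ b by omega)]
          have hb : body.eval (Function.update ρ b k) = fun y =>
              if y = b then k else if y = b + 1 then j + 1 else if y = b + 2 then R (j + 1)
              else ρ y := by
            show Prog.eval (.inc (b + 1)) ((move (b + 3) (b + 2)).eval ((clr (b + 2)).eval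
              (Pg.eval (Function.update ρ b k)))) = _
            rw [hg, eval_clr, eval_move (by omega)]
            funext y
            by_cases e0 : y = b
            · subst e0; simp [Prog.eval]
            by_cases e1 : y = b + 1
            · subst e1; simp [Prog.eval, h1]
            by_cases e2 : y = b + 2
            · subst e2; simp [Prog.eval]
            by_cases e3 : y = b + 3
            · subst e3; simp [Prog.eval, h3]
            simp [Prog.eval, e0, e1, e2, e3]
          show Prog.loopN b body.eval k (body.eval (Function.update ρ b k)) x = _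
          rw [hb, ih (j + 1) _ (by simp) (by simp) (by simp) (by simp [h3])
            (fun y hy => by
              rw [if_neg (by omega), if_neg (by omega), if_neg (by omega)]
              exact h4 y hy)
            (fun i => by
              have := ha i.succ
              rw [if_neg (by omega), if_neg (by omega), if_neg (by omega)]
              exact h5 i) x, show j + 1 + k = j + (k + 1) by omega]
          split_ifs <;> rfl
      show (move (b + 2) o).eval ((clr (b + 1)).eval ((Prog.loop b body).eval
        (Pf.eval ((dup (a 0) b (b + 4)).eval σ)))) = _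
      rw [eval_dup (by omega) (by omega) (by omega) σ (hσb _ (by omega)), hσb b le_rfl, zero_add]
      have hf' : Pf.eval (Function.update σ b (σ (a 0))) =
          Function.update (Function.update σ b (σ (a 0))) (b + 2) (f t) := by
        rw [hPf.eval _ (by simp [hσb]) fun y hy => by
          rw [Function.update_of_ne (by omega)]; exact hσb y (by omega)]
        congr 2
        refine congrArg ofFn (funext fun i => ?_)
        have := ha i.succ
        exact Function.update_of_ne (by omega) _ _
      rw [hf', eval_clr, eval_move (by omega)]
      show Function.update (Function.update (Function.update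
        (Prog.loopN b body.eval _ _) (b + 1) 0) (b + 2) 0) o _ = _
      generalize hρ : Function.update (Function.update σ b (σ (a 0))) (b + 2) (f t) = ρ
      have hρb : ρ b = σ (a 0) := by subst hρ; simp
      have hloop := key (σ (a 0)) 0 ρ hρb (by subst hρ; simp [hσb]) (by subst hρ; simp [hR])
        (by subst hρ; simp [hσb])
        (fun y hy => by
          subst hρ
          rw [Function.update_of_ne (by omega), Function.update_of_ne (by omega)]
          exact hσb y (by omega))
        (fun i => by
          have := ha i.succ
          subst hρ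
          rw [Function.update_of_ne (by omega), Function.update_of_ne (by omega)])
      have hloop' : ∀ x, (Prog.loop b body).eval ρ x = if x = b then 0 else if x = b + 1
          then 0 + σ (a 0) else if x = b + 2 then R (0 + σ (a 0)) else ρ x := fun x => by
        show Prog.loopN b body.eval (ρ b) ρ x = _
        rw [hρb]; exact hloop x
      rw [ofFn_head, ofFn_tail]
      funext y
      by_cases e : y = o
      · subst e
        rw [Function.update_self, Function.update_self,
          Function.update_of_ne (by omega), Function.update_of_ne (by omega), hloop', hloop']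
        simp only [show y ≠ b by omega, show y ≠ b + 1 by omega, show y ≠ b + 2 by omega, if_false]
        subst hρ
        simp [hσo, show y ≠ b by omega, show y ≠ b + 2 by omega, hR]
        rfl
      rw [Function.update_of_ne e, Function.update_of_ne e]
      by_cases e2 : y = b + 2
      · subst e2; simp [hσb]
      by_cases e1 : y = b + 1
      · subst e1; simp [hσb]
      rw [Function.update_of_ne e2, Function.update_of_ne e1, hρb, hloop, if_neg e1, if_neg e2]
      subst hρ
      by_cases e0 : y = b
      · subst e0; simp [hσb]
      · simp [e0, e2]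

end Vale.Agent.P193.Clapham.Mach
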