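import Vale.Agent.P193.Clapham.Machine.Prog

/-!
P193, Clapham, computation layer: instruction graphs as affine maps on numbers `Q * y + q`, the
registers being the exponents of fixed primes in `y`.
-/

namespace Vale.Agent.P193.Clapham.Mach

/-- The prime of a register. -/
noncomputable def pr (r : ℕ) : ℕ := Nat.nth Nat.Prime r

lemma prime_pr (r : ℕ) : (pr r).Prime := Nat.prime_nth_prime r

lemma pr_injective : Function.Injective pr := Nat.nth_injective Nat.infinite_setOfPred_prime

lemma not_pr_dvd_one (r : ℕ) : ¬ pr r ∣ 1 := (prime_pr r).not_dvd_one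

/-- The number of the first `R` registers. -/
noncomputable def enc (R : ℕ) (σ : Regs) : ℕ := ∏ r ∈ Finset.range R, pr r ^ σ r

/-- No exponent outside the registers. -/
def Supp (R : ℕ) (σ : Regs) : Prop := ∀ x, R ≤ x → σ x = 0

/-- A cofactor free of the register primes. -/
def Cofree (R co : ℕ) : Prop := 0 < co ∧ ∀ r < R, ¬ pr r ∣ co

lemma enc_pos (R : ℕ) (σ : Regs) : 0 < enc R σ :=
  Finset.prod_pos fun r _ => pow_pos (prime_pr r).pos _

lemma enc_update_succ {R r : ℕ} (hr : r < R) (σ : Regs) :
    enc R (Function.update σ r (σ r + 1)) = pr r * enc R σ := by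
  have h : r ∈ Finset.range R := Finset.mem_range.2 hr
  unfold enc
  rw [← Finset.mul_prod_erase _ _ h, ← Finset.mul_prod_erase _ (fun x => pr x ^ σ x) h,
    Function.update_self, pow_succ', mul_assoc,
    Finset.prod_congr rfl fun x hx => by rw [Function.update_of_ne (Finset.ne_of_mem_erase hx)]]

lemma dvd_enc_iff {R r co : ℕ} (hr : r < R) (hco : Cofree R co) (σ : Regs) :
    pr r ∣ co * enc R σ ↔ σ r ≠ 0 := by
  constructor
  · intro h hz
    rcases (prime_pr r).dvd_mul.1 h with h | h
    · exact hco.2 r hr h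
    · obtain ⟨x, -, hx⟩ := (prime_pr r).prime.exists_mem_finset_dvd h
      have := (Nat.prime_dvd_prime_iff_eq (prime_pr r) (prime_pr x)).1
        ((prime_pr r).dvd_of_dvd_pow hx)
      obtain rfl := pr_injective this
      rw [hz, pow_zero] at hx
      exact not_pr_dvd_one _ hx
  · intro hz
    exact dvd_mul_of_dvd_right ((dvd_pow_self _ hz).trans
      (Finset.dvd_prod_of_mem (fun x => pr x ^ σ x) (Finset.mem_range.2 hr))) _

lemma enc_update_pred {R r : ℕ} (hr : r < R) (σ : Regs) (hz : σ r ≠ 0) :
    enc R σ = pr r * enc R (Function.update σ r (σ r - 1)) := by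
  have h := enc_update_succ hr (Function.update σ r (σ r - 1))
  rw [Function.update_idem, Function.update_self] at h
  rw [← h, Nat.sub_add_cancel (Nat.one_le_iff_ne_zero.2 hz), Function.update_eq_self]

lemma exists_decomp : ∀ (R : ℕ) {y : ℕ}, 0 < y → ∃ σ co, Supp R σ ∧ Cofree R co ∧ y = co * enc R σ
  | 0, y, hy => ⟨0, y, fun _ _ => rfl, ⟨hy, fun r hr => absurd hr (Nat.not_lt_zero r)⟩,
      by simp [enc]⟩
  | R + 1, y, hy => by
    obtain ⟨σ, co, hσ, hco, rfl⟩ := exists_decomp R hy
    obtain ⟨e, co', hne, rfl⟩ :=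
      Nat.exists_eq_pow_mul_and_not_dvd hco.1.ne' (pr R) (prime_pr R).ne_one
    refine ⟨Function.update σ R e, co', fun x hx => ?_, ⟨?_, fun r hr => ?_⟩, ?_⟩
    · rw [Function.update_of_ne (by omega)]; exact hσ x (by omega)
    · exact Nat.pos_of_mul_pos_left hco.1
    · rcases eq_or_lt_of_le (Nat.lt_succ_iff.1 hr) with rfl | hr
      · exact hne
      · exact fun h => hco.2 r hr (dvd_mul_of_dvd_right h _)
    · have h : ∏ x ∈ Finset.range R, pr x ^ Function.update σ R e x = enc R σ :=
        Finset.prod_congr rfl fun x hx => by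
          rw [Function.update_of_ne (Finset.mem_range.1 hx).ne]
      rw [enc, enc, Finset.prod_range_succ, Function.update_self, h, enc]
      ring

variable {S : Type} (code : S → Ins S)

/-- Divisor, multiplier, successor and alternative of an instruction. -/
noncomputable def row : S → ℕ × ℕ × S × S := fun q =>
  match code q with
  | .halt => (1, 1, q, q)
  | .goto s => (1, 1, s, s)
  | .inc r s => (1, pr r, s, s)
  | .dec r s t => (pr r, 1, s, t)

lemma row_pos (q : S) : 0 < (row code q).1 ∧ 0 < (row code q).2.1 := by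
  unfold row
  cases code q <;> simp [(prime_pr _).pos]

variable {Q : ℕ} (e : S ≃ Fin Q)

/-- The number of a state and a value. -/
def num (q : S) (y : ℕ) : ℕ := Q * y + e q

/-- The step on numbers. -/
noncomputable def stepN (z : ℕ) : ℕ :=
  if hQ : 0 < Q then
    if z / Q = 0 then z
    else if (row code (e.symm ⟨z % Q, Nat.mod_lt _ hQ⟩)).1 ∣ z / Q then
      num e (row code (e.symm ⟨z % Q, Nat.mod_lt _ hQ⟩)).2.2.1
        (z / Q / (row code (e.symm ⟨z % Q, Nat.mod_lt _ hQ⟩)).1 *
          (row code (e.symm ⟨z % Q, Nat.mod_lt _ hQ⟩)).2.1)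
    else num e (row code (e.symm ⟨z % Q, Nat.mod_lt _ hQ⟩)).2.2.2 (z / Q)
  else z

lemma num_div (q : S) (y : ℕ) : num e q y / Q = y := by
  have h := (e q).2
  rw [num, Nat.mul_add_div (by omega), Nat.div_eq_of_lt h, add_zero]

lemma num_mod (q : S) (y : ℕ) : num e q y % Q = e q := by
  rw [num, Nat.mul_add_mod, Nat.mod_eq_of_lt (e q).2]

lemma exists_num (hQ : 0 < Q) (z : ℕ) : ∃ q y, z = num e q y :=
  ⟨e.symm ⟨z % Q, Nat.mod_lt _ hQ⟩, z / Q, by simp [num, Nat.div_add_mod]⟩

lemma num_inj {q q' : S} {y y' : ℕ} (h : num e q y = num e q' y') : q = q' ∧ y = y' := by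
  have h1 := congrArg (· % Q) h
  have h2 := congrArg (· / Q) h
  simp only [num_mod, num_div] at h1 h2
  exact ⟨e.injective (Fin.ext h1), h2⟩

lemma stepN_num (q : S) (y : ℕ) :
    stepN code e (num e q y) = if y = 0 then num e q y else
      if (row code q).1 ∣ y then num e (row code q).2.2.1 (y / (row code q).1 * (row code q).2.1)
      else num e (row code q).2.2.2 y := by
  have hQ : 0 < Q := (Nat.zero_le _).trans_lt (e q).2
  have e1 : e.symm ⟨num e q y % Q, Nat.mod_lt _ hQ⟩ = q := by
    rw [Equiv.symm_apply_eq]; exact Fin.ext (num_mod e q y)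
  simp only [stepN, dif_pos hQ, e1, num_div]

variable {R : ℕ}

/-- The numbers simulate the registers. -/
lemma sim (hcode : ∀ q, ∀ r ∈ (code q).regs, r < R) {co : ℕ} (hco : Cofree R co) (q : S) (σ : Regs) :
    stepN code e (num e q (co * enc R σ)) =
      num e (stepM code (q, σ)).1 (co * enc R (stepM code (q, σ)).2) := by
  have hy : co * enc R σ ≠ 0 := (Nat.mul_pos hco.1 (enc_pos R σ)).ne'
  have hr := hcode q
  rw [stepN_num, if_neg hy]
  cases h : code q with
  | halt => simp [row, stepM, h]
  | goto s => simp [row, stepM, h]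
  | inc r s =>
    rw [h] at hr
    simp only [Ins.regs, List.mem_singleton, forall_eq] at hr
    simp [row, stepM, h, enc_update_succ hr, mul_comm, mul_assoc]
  | dec r s t =>
    rw [h] at hr
    simp only [Ins.regs, List.mem_singleton, forall_eq] at hr
    by_cases hz : σ r = 0
    · have := (dvd_enc_iff hr hco σ).not.2 (not_not.2 hz)
      simp [row, stepM, h, hz, this]
    · have hd := (dvd_enc_iff hr hco σ).2 hz
      simp only [row, stepM, h, hd, if_true, if_neg hz, mul_one]
      rw [enc_update_pred hr σ hz, mul_left_comm, Nat.mul_div_cancel_left _ (prime_pr r).pos]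

lemma supp_step (hcode : ∀ q, ∀ r ∈ (code q).regs, r < R) {x : S × Regs} (hx : Supp R x.2) :
    Supp R (stepM code x).2 := by
  intro y hy
  have hr := hcode x.1
  unfold stepM
  cases h : code x.1 with
  | halt => exact hx y hy
  | goto s => exact hx y hy
  | inc r s =>
    rw [h] at hr
    simp only [Ins.regs, List.mem_singleton, forall_eq] at hr
    show Function.update x.2 r _ y = 0
    rw [Function.update_of_ne (by omega)]
    exact hx y hy
  | dec r s t =>
    rw [h] at hr
    simp only [Ins.regs, List.mem_singleton, forall_eq] at hr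
    dsimp only
    split_ifs
    · exact hx y hy
    · show Function.update x.2 r _ y = 0
      rw [Function.update_of_ne (by omega)]
      exact hx y hy

lemma sim_reach (hcode : ∀ q, ∀ r ∈ (code q).regs, r < R) {co : ℕ} (hco : Cofree R co)
    {x x' : S × Regs} (h : Reach code x x') :
    ∃ n, (stepN code e)^[n] (num e x.1 (co * enc R x.2)) = num e x'.1 (co * enc R x'.2) := by
  obtain ⟨n, rfl⟩ := h
  refine ⟨n, ?_⟩
  induction n generalizing x with
  | zero => rfl
  | succ n ih => rw [Function.iterate_succ_apply, Function.iterate_succ_apply, sim code e hcode hco, ih]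

/-- A number at a halting state or with value zero. -/
def Terminal (w : ℕ) : Prop := ∃ q y, w = num e q y ∧ (code q = .halt ∨ y = 0)

lemma terminal_fixed {w : ℕ} (h : Terminal code e w) : stepN code e w = w := by
  obtain ⟨q, y, rfl, h | rfl⟩ := h
  · rw [stepN_num]
    split_ifs with hy hd
    · rfl
    · simp [row, h]
    · simp [row, h]
  · rw [stepN_num, if_pos rfl]

lemma iterate_fixed {w : ℕ} (h : Terminal code e w) (n : ℕ) : (stepN code e)^[n] w = w :=
  Function.iterate_fixed (terminal_fixed code e h) n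

/-- Two terminal iterates agree. -/
lemma terminal_unique {z n m : ℕ} (hn : Terminal code e ((stepN code e)^[n] z))
    (hm : Terminal code e ((stepN code e)^[m] z)) : (stepN code e)^[n] z = (stepN code e)^[m] z := by
  rcases le_total n m with h | h
  · obtain ⟨d, rfl⟩ := Nat.exists_eq_add_of_le h
    rw [add_comm n d, Function.iterate_add_apply, iterate_fixed code e hn]
  · obtain ⟨d, rfl⟩ := Nat.exists_eq_add_of_le h
    rw [add_comm m d, Function.iterate_add_apply, iterate_fixed code e hm]

end Vale.Agent.P193.Clapham.Mach
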