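import Mathlib

/-!
P193, Clapham, computation layer: register programs with bounded loops, compiled to instruction
graphs. Every program exits from every state and every register content.
-/

namespace Vale.Agent.P193.Clapham.Mach

/-- Register contents. -/
abbrev Regs := ℕ → ℕ

/-- An instruction over a state type. -/
inductive Ins (S : Type) where
  | halt
  | goto (s : S)
  | inc (r : ℕ) (s : S)
  | dec (r : ℕ) (pos zero : S)

/-- Relabel the states of an instruction. -/
def Ins.map {S T : Type} (f : S → T) : Ins S → Ins T
  | .halt => .halt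
  | .goto s => .goto (f s)
  | .inc r s => .inc r (f s)
  | .dec r s t => .dec r (f s) (f t)

/-- The registers of an instruction. -/
def Ins.regs {S : Type} : Ins S → List ℕ
  | .inc r _ => [r]
  | .dec r _ _ => [r]
  | _ => []

lemma Ins.regs_map {S T : Type} (f : S → T) (i : Ins S) : (i.map f).regs = i.regs := by
  cases i <;> rfl

/-- One step of an instruction graph. -/
def stepM {S : Type} (code : S → Ins S) (x : S × Regs) : S × Regs :=
  match code x.1 with
  | .halt => x
  | .goto s => (s, x.2)
  | .inc r s => (s, Function.update x.2 r (x.2 r + 1))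
  | .dec r s t => if x.2 r = 0 then (t, x.2) else (s, Function.update x.2 r (x.2 r - 1))

/-- Reachability. -/
def Reach {S : Type} (code : S → Ins S) (x y : S × Regs) : Prop := ∃ n, (stepM code)^[n] x = y

lemma Reach.refl {S : Type} {code : S → Ins S} (x : S × Regs) : Reach code x x := ⟨0, rfl⟩

lemma Reach.trans {S : Type} {code : S → Ins S} {x y z : S × Regs} (h : Reach code x y)
    (h' : Reach code y z) : Reach code x z := by
  obtain ⟨a, rfl⟩ := h
  obtain ⟨b, rfl⟩ := h'
  exact ⟨b + a, Function.iterate_add_apply _ b a x⟩

lemma Reach.one {S : Type} {code : S → Ins S} {x y : S × Regs} (h : stepM code x = y) :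
    Reach code x y := ⟨1, h⟩

/-- Programs: `loop r A` runs `A` while decrementing `r`. -/
inductive Prog where
  | skip
  | inc (r : ℕ)
  | seq (A B : Prog)
  | loop (r : ℕ) (A : Prog)

namespace Prog

/-- The registers mentioned. -/
def regs : Prog → List ℕ
  | .skip => []
  | .inc r => [r]
  | .seq A B => A.regs ++ B.regs
  | .loop r A => r :: A.regs

/-- Loop counters are not mentioned in their bodies. -/
def WF : Prog → Prop
  | .skip => True
  | .inc _ => True
  | .seq A B => A.WF ∧ B.WF
  | .loop r A => r ∉ A.regs ∧ A.WF

/-- Running a body `n` times with the counter going down to zero. -/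
def loopN (r : ℕ) (body : Regs → Regs) : ℕ → Regs → Regs
  | 0, σ => σ
  | n + 1, σ => loopN r body n (body (Function.update σ r n))

/-- The effect of a program. -/
def eval : Prog → Regs → Regs
  | .skip, σ => σ
  | .inc r, σ => Function.update σ r (σ r + 1)
  | .seq A B, σ => B.eval (A.eval σ)
  | .loop r A, σ => loopN r A.eval (σ r) σ

lemma eval_of_notMem : ∀ (P : Prog) (σ : Regs) {x : ℕ}, x ∉ P.regs → P.eval σ x = σ x
  | .skip, _, _, _ => rfl
  | .inc r, σ, x, h => by
    simp only [regs, List.mem_singleton] at h
    exact Function.update_of_ne h _ _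
  | .seq A B, σ, x, h => by
    simp only [regs, List.mem_append, not_or] at h
    exact (eval_of_notMem B _ h.2).trans (eval_of_notMem A σ h.1)
  | .loop r A, σ, x, h => by
    simp only [regs, List.mem_cons, not_or] at h
    show loopN r A.eval (σ r) σ x = σ x
    generalize σ r = n
    induction n generalizing σ with
    | zero => rfl
    | succ n ih =>
      exact (ih _).trans ((eval_of_notMem A _ h.2).trans (Function.update_of_ne h.1 _ _))

/-- The states of a program. -/
def State : Prog → Type
  | .skip => Unit
  | .inc _ => Unit
  | .seq A B => A.State ⊕ B.State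
  | .loop _ A => Option A.State

/-- States form a finite type. -/
@[instance_reducible] def fintypeState : ∀ P : Prog, Fintype P.State
  | .skip => inferInstanceAs (Fintype Unit)
  | .inc _ => inferInstanceAs (Fintype Unit)
  | .seq A B =>
    letI := fintypeState A
    letI := fintypeState B
    inferInstanceAs (Fintype (A.State ⊕ B.State))
  | .loop _ A =>
    letI := fintypeState A
    inferInstanceAs (Fintype (Option A.State))

instance (P : Prog) : Fintype P.State := fintypeState P

/-- The first state. -/
def entry : ∀ P : Prog, P.State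
  | .skip => ()
  | .inc _ => ()
  | .seq A _ => Sum.inl A.entry
  | .loop _ _ => none

/-- The instructions, `none` being the exit. -/
def code : ∀ P : Prog, P.State → Ins (Option P.State)
  | .skip, _ => .goto none
  | .inc r, _ => .inc r none
  | .seq A B, Sum.inl a => (A.code a).map fun x => x.elim (some (Sum.inr B.entry)) (some ∘ Sum.inl)
  | .seq _ B, Sum.inr b => (B.code b).map (Option.map Sum.inr)
  | .loop r A, none => .dec r (some (some A.entry)) none
  | .loop _ A, some a => (A.code a).map fun x => x.elim (some none) (some ∘ some)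

lemma regs_code : ∀ (P : Prog) (s : P.State), ∀ r ∈ (P.code s).regs, r ∈ P.regs
  | .skip, _, r, h => by simp [code, Ins.regs] at h
  | .inc _, _, r, h => by simpa [code, Ins.regs, regs] using h
  | .seq A B, Sum.inl a, r, h => by
    simp only [code, Ins.regs_map] at h
    exact List.mem_append_left _ (regs_code A a r h)
  | .seq A B, Sum.inr b, r, h => by
    simp only [code, Ins.regs_map] at h
    exact List.mem_append_right _ (regs_code B b r h)
  | .loop r' A, none, r, h => by
    simp only [code, Ins.regs, List.mem_singleton] at h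
    exact h ▸ List.mem_cons_self
  | .loop r' A, some a, r, h => by
    simp only [code, Ins.regs_map] at h
    exact List.mem_cons_of_mem _ (regs_code A a r h)

/-- A program placed inside an instruction graph. -/
def Emb {S : Type} (g : S → Ins S) (P : Prog) (ι : P.State → S) (e : S) : Prop :=
  ∀ s, g (ι s) = (P.code s).map fun x => x.elim e ι

variable {S : Type} {g : S → Ins S}

lemma Emb.left {A B : Prog} {ι : (seq A B).State → S} {e : S} (h : Emb g (seq A B) ι e) :
    Emb g A (fun a => ι (Sum.inl a)) (ι (Sum.inr B.entry)) := fun a => by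
  rw [h (Sum.inl a), code]
  cases A.code a with
  | halt => rfl
  | goto s => cases s <;> rfl
  | inc r s => cases s <;> rfl
  | dec r s t => cases s <;> cases t <;> rfl

lemma Emb.right {A B : Prog} {ι : (seq A B).State → S} {e : S} (h : Emb g (seq A B) ι e) :
    Emb g B (fun b => ι (Sum.inr b)) e := fun b => by
  rw [h (Sum.inr b), code]
  cases B.code b with
  | halt => rfl
  | goto s => cases s <;> rfl
  | inc r s => cases s <;> rfl
  | dec r s t => cases s <;> cases t <;> rfl

lemma Emb.body {A : Prog} {r : ℕ} {ι : (loop r A).State → S} {e : S} (h : Emb g (loop r A) ι e) :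
    Emb g A (fun a => ι (some a)) (ι none) := fun a => by
  rw [h (some a), code]
  cases A.code a with
  | halt => rfl
  | goto s => cases s <;> rfl
  | inc r s => cases s <;> rfl
  | dec r s t => cases s <;> cases t <;> rfl

/-- A program computes its effect. -/
lemma reach_eval : ∀ {P : Prog}, P.WF → ∀ {ι : P.State → S} {e : S}, Emb g P ι e → ∀ σ,
    Reach g (ι P.entry, σ) (e, P.eval σ)
  | .skip, _, ι, e, h, σ => Reach.one (by simp [stepM, h (), code, entry, eval, Ins.map])
  | .inc r, _, ι, e, h, σ => Reach.one (by simp [stepM, h (), code, entry, eval, Ins.map])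
  | .seq A B, hw, ι, e, h, σ =>
    (reach_eval hw.1 h.left σ).trans (reach_eval hw.2 h.right (A.eval σ))
  | .loop r A, hw, ι, e, h, σ => by
    show Reach g (ι none, σ) (e, loopN r A.eval (σ r) σ)
    generalize hn : σ r = n
    induction n generalizing σ with
    | zero => exact Reach.one (by simp [stepM, h none, code, Ins.map, hn, loopN])
    | succ n ih =>
      have h1 : Reach g (ι none, σ) (ι (some A.entry), Function.update σ r n) :=
        Reach.one (by simp [stepM, h none, code, Ins.map, hn]; rfl)
      refine (h1.trans (reach_eval hw.2 h.body _)).trans (ih _ ?_)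
      rw [eval_of_notMem A _ hw.1, Function.update_self]

/-- A program exits from every state, changing only its registers. -/
lemma exits : ∀ {P : Prog}, P.WF → ∀ {ι : P.State → S} {e : S}, Emb g P ι e → ∀ (s : P.State) σ,
    ∃ σ', Reach g (ι s, σ) (e, σ') ∧ ∀ x ∉ P.regs, σ' x = σ x
  | .skip, hw, ι, e, h, (), σ => ⟨_, reach_eval hw h σ, fun x hx => eval_of_notMem _ σ hx⟩
  | .inc r, hw, ι, e, h, (), σ => ⟨_, reach_eval hw h σ, fun x hx => eval_of_notMem _ σ hx⟩
  | .seq A B, hw, ι, e, h, Sum.inl a, σ => by
    obtain ⟨σ', h1, h2⟩ := exits hw.1 h.left a σ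
    refine ⟨_, h1.trans (reach_eval hw.2 h.right σ'), fun x hx => ?_⟩
    simp only [regs, List.mem_append, not_or] at hx
    exact (eval_of_notMem B σ' hx.2).trans (h2 x hx.1)
  | .seq A B, hw, ι, e, h, Sum.inr b, σ => by
    obtain ⟨σ', h1, h2⟩ := exits hw.2 h.right b σ
    refine ⟨σ', h1, fun x hx => h2 x ?_⟩
    simp only [regs, List.mem_append, not_or] at hx
    exact hx.2
  | .loop r A, hw, ι, e, h, none, σ => ⟨_, reach_eval hw h σ, fun x hx => eval_of_notMem _ σ hx⟩
  | .loop r A, hw, ι, e, h, some a, σ => by
    obtain ⟨σ', h1, h2⟩ := exits hw.2 h.body a σ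
    refine ⟨_, h1.trans (reach_eval hw h σ'), fun x hx => ?_⟩
    rw [eval_of_notMem _ σ' hx]
    simp only [regs, List.mem_cons, not_or] at hx
    exact h2 x hx.2

end Prog

/-- Sequence of a list of programs. -/
def Prog.seqs : List Prog → Prog
  | [] => .skip
  | P :: L => .seq P (seqs L)

lemma Prog.regs_seqs (L : List Prog) : (seqs L).regs = L.flatMap regs := by
  induction L with
  | nil => rfl
  | cons P L ih => simp [seqs, regs, ih]

lemma Prog.wf_seqs {L : List Prog} (h : ∀ P ∈ L, P.WF) : (seqs L).WF := by
  induction L with
  | nil => trivial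
  | cons P L ih =>
    exact ⟨h P List.mem_cons_self, ih fun Q hQ => h Q (List.mem_cons_of_mem _ hQ)⟩

/-! ### Basic programs -/

/-- Set a register to zero. -/
def clr (r : ℕ) : Prog := .loop r .skip

/-- Add one register to another and clear it. -/
def move (r s : ℕ) : Prog := .loop r (.inc s)

/-- Add one register to another, using a clean third one. -/
def dup (r s t : ℕ) : Prog := .seq (.loop r (.seq (.inc s) (.inc t))) (move t r)

lemma eval_clr (r : ℕ) (σ : Regs) : (clr r).eval σ = Function.update σ r 0 := by
  show Prog.loopN r (fun σ => σ) (σ r) σ = _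
  generalize hn : σ r = n
  induction n generalizing σ with
  | zero => simp [Prog.loopN, ← hn]
  | succ n ih => simp [Prog.loopN, ih _ (Function.update_self r n σ)]

lemma eval_move {r s : ℕ} (h : r ≠ s) (σ : Regs) :
    (move r s).eval σ = Function.update (Function.update σ r 0) s (σ s + σ r) := by
  show Prog.loopN r _ (σ r) σ = _
  generalize hn : σ r = n
  induction n generalizing σ with
  | zero =>
    ext x
    by_cases hx : x = s
    · subst hx; simp [Prog.loopN]
    · by_cases hxr : x = r
      · subst hxr; simp [Prog.loopN, hn, hx]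
      · simp [Prog.loopN, hx, hxr]
  | succ n ih =>
    show Prog.loopN r _ n _ = _
    rw [ih _ (by simp [Prog.eval, h])]
    ext x
    by_cases hx : x = s
    · subst hx; simp [Prog.eval, Ne.symm h]; omega
    · by_cases hxr : x = r
      · subst hxr; simp [Prog.eval, hx]
      · simp [Prog.eval, hx, hxr]

lemma eval_dup {r s t : ℕ} (hrs : r ≠ s) (hrt : r ≠ t) (hst : s ≠ t) (σ : Regs) (ht : σ t = 0) :
    (dup r s t).eval σ = Function.update σ s (σ s + σ r) := by
  have key : ∀ (n : ℕ) (ρ : Regs), ρ r = n →
      Prog.loopN r (Prog.eval (.seq (.inc s) (.inc t))) n ρ =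
        Function.update (Function.update (Function.update ρ r 0) s (ρ s + n)) t (ρ t + n) := by
    intro n
    induction n with
    | zero =>
      intro ρ hn
      ext x
      by_cases h1 : x = t
      · subst h1; simp [Prog.loopN]
      · by_cases h2 : x = s
        · subst h2; simp [Prog.loopN, h1]
        · by_cases h3 : x = r
          · subst h3; simp [Prog.loopN, hn, h1, h2]
          · simp [Prog.loopN, h1, h2, h3]
    | succ n ih =>
      intro ρ hn
      show Prog.loopN r _ n _ = _
      rw [ih _ (by simp [Prog.eval, hrs, hrt])]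
      ext x
      by_cases h1 : x = t
      · subst h1; simp [Prog.eval, hrt.symm, hst.symm]; omega
      · by_cases h2 : x = s
        · subst h2; simp [Prog.eval, h1, hrs.symm]; omega
        · by_cases h3 : x = r
          · subst h3; simp [Prog.eval, h1, h2]
          · simp [Prog.eval, h1, h2, h3]
  show (move t r).eval (Prog.loopN r _ (σ r) σ) = _
  rw [key _ σ rfl, eval_move hrt.symm]
  ext x
  by_cases h3 : x = r
  · subst h3; simp [hrs, hrt, ht]
  · by_cases h1 : x = t
    · subst h1; simp [h3, hst.symm, ht]
    · by_cases h2 : x = s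
      · subst h2; simp [h1, h3]
      · simp [h1, h2, h3]

/-- Clear a list of registers. -/
def clrs (L : List ℕ) : Prog := Prog.seqs (L.map clr)

lemma eval_clrs (L : List ℕ) (σ : Regs) (x : ℕ) :
    (clrs L).eval σ x = if x ∈ L then 0 else σ x := by
  induction L generalizing σ with
  | nil => simp [clrs, Prog.seqs, Prog.eval]
  | cons a L ih =>
    show (clrs L).eval ((clr a).eval σ) x = _
    rw [ih, eval_clr]
    by_cases hx : x = a
    · subst hx; simp
    · simp [hx]

lemma wf_clrs (L : List ℕ) : (clrs L).WF := by
  refine Prog.wf_seqs fun P hP => ?_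
  obtain ⟨r, -, rfl⟩ := List.mem_map.1 hP
  exact ⟨by simp [Prog.regs], trivial⟩

lemma regs_clrs (L : List ℕ) : (clrs L).regs = L := by
  simp [clrs, Prog.regs_seqs, clr, Prog.regs, List.flatMap_map]

end Vale.Agent.P193.Clapham.Mach
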