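import Vale.Agent.P193.Clapham.Machine.Compile

/-!
P193, Clapham, computation layer: the top graph. Appending programs return to `inn`; the checking
program increases a clock until the decision appears and never gets stuck, whatever it starts from.
-/

namespace Vale.Agent.P193.Clapham.Mach

/-- What the clock shows when decided. -/
def bit (dec : ℕ → Bool) (c : ℕ) : ℕ := cond (dec c) 2 1

lemma bit_ne_zero (dec : ℕ → Bool) (c : ℕ) : bit dec c ≠ 0 := by
  cases h : dec c <;> simp [bit, h]

/-- A primitive recursive clock for a computable predicate. -/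
lemma exists_clock {dec : ℕ → Bool} (hd : Computable dec) :
    ∃ T : ℕ → ℕ → ℕ, (Nat.Primrec' fun v : List.Vector ℕ 2 => T (v.get 0) (v.get 1)) ∧
      (∀ c s, T c s ≠ 0 → T c s = bit dec c) ∧ ∀ c, ∃ s₀, ∀ s, s₀ ≤ s → T c s ≠ 0 := by
  have hb : Computable (bit dec) := Computable.cond hd (Computable.const 2) (Computable.const 1)
  obtain ⟨cd, hcd⟩ := Nat.Partrec.Code.exists_code.1 (Partrec.nat_iff.1 hb.partrec)
  refine ⟨fun c s => (Nat.Partrec.Code.evaln s cd c).getD 0, ?_, fun c s hs => ?_, fun c => ?_⟩
  · refine Nat.Primrec'.of_prim ?_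
    have hv : ∀ i : Fin 2, Primrec fun v : List.Vector ℕ 2 => v.get i :=
      fun i => Primrec.vector_get.comp .id (.const i)
    exact Primrec.option_getD.comp
      (Nat.Partrec.Code.primrec_evaln.comp (((hv 1).pair (.const cd)).pair (hv 0))) (.const 0)
  · cases h : Nat.Partrec.Code.evaln s cd c with
    | none => simp [h] at hs
    | some a =>
      have := Nat.Partrec.Code.evaln_sound (Option.mem_def.2 h)
      rw [hcd] at this
      simpa [h] using this
  · have hmem : bit dec c ∈ Nat.Partrec.Code.eval cd c := by rw [hcd]; exact Part.mem_some _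
    obtain ⟨s₀, hs₀⟩ := Nat.Partrec.Code.evaln_complete.1 hmem
    refine ⟨s₀, fun s hs => ?_⟩
    show (Nat.Partrec.Code.evaln s cd c).getD 0 ≠ 0
    rw [Option.mem_def.1 (Nat.Partrec.Code.evaln_mono hs hs₀)]
    cases h : dec c <;> simp [bit, h]

variable (k : ℕ) (PT : Prog)

/-- The number of registers. -/
def nReg : ℕ := PT.regs.foldr max 3 + 1

lemma four_le_nReg : 4 ≤ nReg PT := by
  have : ∀ l : List ℕ, 3 ≤ l.foldr max 3 := fun l => by
    induction l with
    | nil => rfl
    | cons a l ih => exact ih.trans (le_max_right _ _)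
  have := this PT.regs
  unfold nReg; omega

lemma lt_nReg {x : ℕ} (hx : x ∈ PT.regs) : x < nReg PT := by
  have : ∀ l : List ℕ, x ∈ l → x ≤ l.foldr max 3 := fun l => by
    induction l with
    | nil => simp
    | cons a l ih =>
      intro h
      rcases List.mem_cons.1 h with rfl | h
      · exact le_max_left _ _
      · exact (ih h).trans (le_max_right _ _)
  have := this _ hx
  unfold nReg; omega

/-- The program blocks. -/
inductive Blk (k : ℕ) where
  | app (i : Fin k)
  | head
  | rej
  | accept

/-- Blocks form a finite type. -/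
def Blk.equiv (k : ℕ) : Blk k ≃ (Fin k ⊕ Fin 3) where
  toFun
    | .app i => .inl i
    | .head => .inr 0
    | .rej => .inr 1
    | .accept => .inr 2
  invFun
    | .inl i => .app i
    | .inr 0 => .head
    | .inr 1 => .rej
    | .inr 2 => .accept
  left_inv b := by cases b <;> rfl
  right_inv x := by
    rcases x with i | j
    · rfl
    · fin_cases j <;> rfl

instance : Fintype (Blk k) := Fintype.ofEquiv _ (Blk.equiv k).symm

/-- `n` increments. -/
def incs (n : ℕ) : Prog := Prog.seqs (List.replicate n (.inc 0))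

/-- The program of a block. -/
def prog : Blk k → Prog
  | .app i => Prog.seqs [move 0 3, .loop 3 (incs k), incs (i + 1)]
  | .head => .seq (clrs ((List.range (nReg PT)).filter (2 ≤ ·))) PT
  | .rej => clrs ((List.range (nReg PT)).filter (1 ≤ ·))
  | .accept => clrs (List.range (nReg PT))

/-- States: three final ones, scratch tests, blocks, and the three states testing the decision. -/
abbrev St : Type :=
  Fin 3 ⊕ (Option (Fin k) × Fin (nReg PT + 1)) ⊕ (Σ b : Blk k, (prog k PT b).State) ⊕ Fin 3

/-- Waiting for a command. -/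
def inn : St k PT := .inl 0

/-- Accepted. -/
def accs : St k PT := .inl 1

/-- Invalid. -/
def dead : St k PT := .inl 2

/-- The start of a block. -/
def start (b : Blk k) : St k PT := .inr (.inr (.inl ⟨b, (prog k PT b).entry⟩))

/-- The start of the tests before a command. -/
def chk (c : Option (Fin k)) : St k PT := .inr (.inl (c, 0))

/-- The decision tests. -/
def tst (j : Fin 3) : St k PT := .inr (.inr (.inr j))

/-- Where a block exits. -/
def exitOf : Blk k → St k PT
  | .app _ => inn k PT
  | .head => tst k PT 0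
  | .rej => inn k PT
  | .accept => accs k PT

/-- The block after the tests. -/
def target : Option (Fin k) → Blk k
  | some i => .app i
  | none => .head

/-- The graph. -/
def topCode : St k PT → Ins (St k PT)
  | .inl _ => .halt
  | .inr (.inl (c, j)) =>
    if h : (j : ℕ) < nReg PT then
      if (j : ℕ) = 0 then .goto (.inr (.inl (c, ⟨j + 1, Nat.succ_lt_succ h⟩)))
      else .dec j (dead k PT) (.inr (.inl (c, ⟨j + 1, Nat.succ_lt_succ h⟩)))
    else .goto (start k PT (target k c))
  | .inr (.inr (.inl ⟨b, s⟩)) =>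
    ((prog k PT b).code s).map fun x =>
      x.elim (exitOf k PT b) fun s' => .inr (.inr (.inl ⟨b, s'⟩))
  | .inr (.inr (.inr j)) =>
    if j = 0 then .dec 2 (tst k PT 1) (tst k PT 2)
    else if j = 1 then .dec 2 (start k PT .accept) (start k PT .rej)
    else .inc 1 (start k PT .head)

variable {k PT}

lemma emb (b : Blk k) :
    Prog.Emb (topCode k PT) (prog k PT b) (fun s => .inr (.inr (.inl ⟨b, s⟩))) (exitOf k PT b) :=
  fun _ => rfl

lemma wf_incs (n : ℕ) : (incs n).WF := Prog.wf_seqs fun P hP => by
  rw [List.eq_of_mem_replicate hP]; trivial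

lemma regs_incs {n x : ℕ} (hx : x ∈ (incs n).regs) : x = 0 := by
  simp [incs, Prog.regs_seqs, Prog.regs] at hx
  exact hx.2

lemma eval_incs (n : ℕ) (σ : Regs) : (incs n).eval σ = Function.update σ 0 (σ 0 + n) := by
  induction n generalizing σ with
  | zero => simp [incs, Prog.seqs, Prog.eval]
  | succ n ih =>
    show (incs n).eval (Function.update σ 0 (σ 0 + 1)) = _
    rw [ih, Function.update_self, Function.update_idem, add_assoc, add_comm 1 n]

lemma regs_prog {b : Blk k} (hPT : ∀ x ∈ PT.regs, x < nReg PT) :
    ∀ x ∈ (prog k PT b).regs, x < nReg PT := by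
  intro x hx
  have := four_le_nReg PT
  cases b with
  | app i =>
    simp only [prog, Prog.regs_seqs, List.flatMap_cons, List.flatMap_nil, List.append_nil,
      List.mem_append, Prog.regs, List.mem_cons, regs_move] at hx
    rcases hx with (h | h) | (h | h) | h
    · omega
    · omega
    · omega
    · have := regs_incs h; omega
    · have := regs_incs h; omega
  | head =>
    simp only [prog, Prog.regs, List.mem_append, regs_clrs, List.mem_filter, List.mem_range] at hx
    rcases hx with h | h
    · exact h.1
    · exact hPT x h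
  | rej =>
    simp only [prog, regs_clrs, List.mem_filter, List.mem_range] at hx
    exact hx.1
  | accept => simpa [prog, regs_clrs] using hx

lemma regs_top (hPT : ∀ x ∈ PT.regs, x < nReg PT) :
    ∀ q : St k PT, ∀ r ∈ (topCode k PT q).regs, r < nReg PT := by
  intro q r hr
  have := four_le_nReg PT
  rcases q with j | ⟨c, j⟩ | ⟨b, s⟩ | j
  · simp [topCode, Ins.regs] at hr
  · simp only [topCode] at hr
    split_ifs at hr with h h0
    · simp [Ins.regs] at hr
    · simp only [Ins.regs, List.mem_singleton] at hr; omega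
    · simp [Ins.regs] at hr
  · simp only [topCode, Ins.regs_map] at hr
    exact regs_prog hPT r (Prog.regs_code _ s r hr)
  · fin_cases j <;> simp [topCode, Ins.regs] at hr <;> omega

/-- From the tests: the command starts if the scratch registers vanish, and else it dies. -/
lemma reach_chk (c : Option (Fin k)) {σ : Regs} (hσ : ∀ x, nReg PT ≤ x → σ x = 0) :
    ∀ (n : ℕ) (j : Fin (nReg PT + 1)), (j : ℕ) + n = nReg PT →
      ((∀ x, 0 < x → (j : ℕ) ≤ x → σ x = 0) →
        Reach (topCode k PT) (.inr (.inl (c, j)), σ) (start k PT (target k c), σ)) ∧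
      (¬ (∀ x, 0 < x → (j : ℕ) ≤ x → σ x = 0) →
        ∃ σ', Reach (topCode k PT) (.inr (.inl (c, j)), σ) (dead k PT, σ'))
  | 0, j, hj => by
    refine ⟨fun _ => Reach.one ?_, fun h => absurd (fun x _ hx => hσ x (by omega)) h⟩
    have : ¬ (j : ℕ) < nReg PT := by omega
    simp [stepM, topCode, this]
  | n + 1, j, hj => by
    have hlt : (j : ℕ) < nReg PT := by omega
    obtain ⟨ih1, ih2⟩ := reach_chk c hσ n ⟨j + 1, Nat.succ_lt_succ hlt⟩ (by simp only; omega)
    by_cases hd : (j : ℕ) ≠ 0 ∧ σ j ≠ 0
    · refine ⟨fun h => absurd (h j (by omega) le_rfl) hd.2,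
        fun _ => ⟨Function.update σ (j : ℕ) (σ j - 1), Reach.one ?_⟩⟩
      simp [stepM, topCode, hlt, hd.1, hd.2]
    · have h1 : Reach (topCode k PT) (.inr (.inl (c, j)), σ)
          (.inr (.inl (c, ⟨j + 1, Nat.succ_lt_succ hlt⟩)), σ) := by
        refine Reach.one ?_
        by_cases h0 : (j : ℕ) = 0
        · simp [stepM, topCode, h0, show 0 < nReg PT by omega]
        · simp [stepM, topCode, hlt, h0, not_and_not_right.1 hd h0]
      have hiff : (∀ x, 0 < x → (j : ℕ) ≤ x → σ x = 0) ↔
          ∀ x, 0 < x → (j : ℕ) + 1 ≤ x → σ x = 0 := by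
        refine ⟨fun h x h0 hx => h x h0 (by omega), fun h x h0 hx => ?_⟩
        rcases eq_or_lt_of_le hx with rfl | hx
        · exact not_and_not_right.1 hd (by omega)
        · exact h x h0 hx
      refine ⟨fun h => h1.trans (ih1 (hiff.1 h)), fun h => ?_⟩
      obtain ⟨σ', h2⟩ := ih2 fun h' => h (hiff.2 h')
      exact ⟨σ', h1.trans h2⟩

/-- The tests as a whole. -/
lemma reach_command (c : Option (Fin k)) {σ : Regs} (hσ : ∀ x, nReg PT ≤ x → σ x = 0) :
    ((∀ x, 0 < x → σ x = 0) →
      Reach (topCode k PT) (chk k PT c, σ) (start k PT (target k c), σ)) ∧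
    (¬ (∀ x, 0 < x → σ x = 0) →
      ∃ σ', Reach (topCode k PT) (chk k PT c, σ) (dead k PT, σ')) := by
  obtain ⟨h1, h2⟩ := reach_chk c hσ (nReg PT) 0 (by simp)
  exact ⟨fun h => h1 fun x hx _ => h x hx, fun h => h2 fun h' => h fun x hx => h' x hx (by simp)⟩

lemma wf_prog (hw : PT.WF) : ∀ b : Blk k, (prog k PT b).WF := by
  intro b
  cases b with
  | app i =>
    exact ⟨wf_move (by norm_num), ⟨fun h => by simpa using regs_incs h, wf_incs _⟩,
      wf_incs _, trivial⟩
  | head => exact ⟨wf_clrs _, hw⟩
  | rej => exact wf_clrs _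
  | accept => exact wf_clrs _

/-- Appending a letter. -/
lemma reach_app (hw : PT.WF) (i : Fin k) {σ : Regs} (hσ : ∀ x, 0 < x → σ x = 0) :
    Reach (topCode k PT) (start k PT (.app i), σ)
      (inn k PT, Function.update σ 0 (k * σ 0 + i + 1)) := by
  have h := Prog.reach_eval (wf_prog hw (.app i)) (emb (PT := PT) (.app i)) σ
  suffices e : (prog k PT (.app i)).eval σ = Function.update σ 0 (k * σ 0 + i + 1) by
    rw [e] at h; exact h
  show (incs (i + 1)).eval ((Prog.loop 3 (incs k)).eval ((move 0 3).eval σ)) = _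
  rw [eval_move (by norm_num), eval_incs]
  have key : ∀ (n : ℕ) (ρ : Regs), ρ 3 = n → Prog.loopN 3 (incs k).eval n ρ =
      Function.update (Function.update ρ 3 0) 0 (ρ 0 + k * n) := by
    intro n
    induction n with
    | zero =>
      intro ρ h
      show ρ = _
      funext x
      by_cases h0 : x = 0
      · subst h0; simp
      · by_cases h3 : x = 3
        · subst h3; simp [h]
        · simp [h0, h3]
    | succ n ih =>
      intro ρ h
      show Prog.loopN 3 _ n _ = _
      rw [ih _ (by rw [eval_incs]; simp), eval_incs]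
      funext x
      by_cases h0 : x = 0
      · subst h0; simp; ring
      · by_cases h3 : x = 3
        · subst h3; simp
        · simp [h0, h3]
  show Function.update (Prog.loopN 3 _ _ _) 0 ((Prog.loop 3 (incs k)).eval _ 0 + _) = _
  show Function.update (Prog.loopN 3 _ _ _) 0 (Prog.loopN 3 _ _ _ 0 + _) = _
  rw [key _ _ rfl]
  funext x
  by_cases h0 : x = 0
  · subst h0; simp [hσ 3 (by norm_num)]; ring
  · by_cases h3 : x = 3
    · subst h3; simp [hσ 3 (by norm_num)]
    · simp [h0, h3]

variable {T : ℕ → ℕ → ℕ} {dec : ℕ → Bool}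

/-- The checking loop decides, whatever the scratch registers hold. -/
lemma reach_head (hPT : Computes (fun v : List.Vector ℕ 2 => T (v.get 0) (v.get 1)) ![0, 1] 2 3 PT)
    (hT : ∀ c s, T c s ≠ 0 → T c s = bit dec c) (hT' : ∀ c, ∃ s₀, ∀ s, s₀ ≤ s → T c s ≠ 0)
    {σ : Regs} (hσ : ∀ x, nReg PT ≤ x → σ x = 0) :
    Reach (topCode k PT) (start k PT .head, σ)
      (if dec (σ 0) = true then (accs k PT, (0 : Regs)) else (inn k PT, Function.update (0 : Regs) 0 (σ 0))) := by
  obtain ⟨s₀, hs₀⟩ := hT' (σ 0)
  generalize hn : s₀ - σ 1 = n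
  induction n using Nat.strong_induction_on generalizing σ with
  | _ n ih =>
    have := four_le_nReg PT
    set ρ : Regs := fun x => if x = 0 ∨ x = 1 then σ x else if x = 2 then T (σ 0) (σ 1) else 0
      with hρ
    have hhi : ∀ x, 3 ≤ x → ρ x = 0 := fun x hx => by
      simp only [hρ]
      rw [if_neg (by omega), if_neg (by omega)]
    have h1 : Reach (topCode k PT) (start k PT .head, σ) (tst k PT 0, ρ) := by
      have h := Prog.reach_eval (wf_prog hPT.wf .head) (emb (k := k) (PT := PT) .head) σ
      suffices e : (prog k PT .head).eval σ = ρ by rw [e] at h; exact h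
      show PT.eval ((clrs _).eval σ) = ρ
      have hc : ∀ x, (clrs ((List.range (nReg PT)).filter (2 ≤ ·))).eval σ x =
          if x = 0 ∨ x = 1 then σ x else 0 := fun x => by
        rw [eval_clrs]
        simp only [List.mem_filter, List.mem_range, decide_eq_true_eq]
        by_cases hx : x = 0 ∨ x = 1
        · rw [if_neg (by omega), if_pos hx]
        · rw [if_neg hx]
          split_ifs with h
          · rfl
          · exact hσ x (by omega)
      rw [hPT.eval _ (by rw [hc]; simp) fun x hx => by rw [hc, if_neg (by omega)]]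
      funext x
      simp only [List.Vector.get_ofFn, Matrix.cons_val_zero, Matrix.cons_val_one]
      by_cases hx : x = 2
      · subst hx; simp [hρ, hc]
      · rw [Function.update_of_ne hx, hc]; simp [hρ, hx]
    by_cases hz : T (σ 0) (σ 1) = 0
    · have h2 : Reach (topCode k PT) (tst k PT 0, ρ) (tst k PT 2, ρ) :=
        Reach.one (by simp [stepM, topCode, tst, hρ, hz])
      have h3 : Reach (topCode k PT) (tst k PT 2, ρ)
          (start k PT .head, Function.update ρ 1 (ρ 1 + 1)) :=
        Reach.one (by simp [stepM, topCode, tst])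
      have hlt : σ 1 < s₀ := by
        by_contra h
        exact hs₀ _ (not_lt.1 h) hz
      have h4 := ih (s₀ - (σ 1 + 1)) (by omega) (σ := Function.update ρ 1 (ρ 1 + 1))
        (fun x hx => by rw [Function.update_of_ne (by omega)]; exact hhi x (by omega))
        (by simpa [hρ] using hs₀) (by simp [hρ])
      simp only [Function.update_of_ne (show (0 : ℕ) ≠ 1 by omega)] at h4
      have e0 : ρ 0 = σ 0 := by simp [hρ]
      rw [e0] at h4
      exact ((h1.trans h2).trans h3).trans h4
    · have hb := hT _ _ hz
      have h2 : Reach (topCode k PT) (tst k PT 0, ρ)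
          (tst k PT 1, Function.update ρ 2 (bit dec (σ 0) - 1)) :=
        Reach.one (by simp [stepM, topCode, tst, hρ, hb, bit_ne_zero])
      cases hd : dec (σ 0) with
      | true =>
        have h3 : Reach (topCode k PT) (tst k PT 1, Function.update ρ 2 (bit dec (σ 0) - 1))
            (start k PT .accept, Function.update (Function.update ρ 2 (bit dec (σ 0) - 1)) 2 0) :=
          Reach.one (by simp [stepM, topCode, tst, bit, hd])
        have h4 := Prog.reach_eval (wf_prog hPT.wf .accept) (emb (k := k) (PT := PT) .accept)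
          (Function.update (Function.update ρ 2 (bit dec (σ 0) - 1)) 2 0)
        have e : (prog k PT .accept).eval
            (Function.update (Function.update ρ 2 (bit dec (σ 0) - 1)) 2 0) = 0 := by
          funext x
          show (clrs _).eval _ x = 0
          rw [eval_clrs]
          simp only [List.mem_range]
          split_ifs with h
          · rfl
          · rw [Function.update_of_ne (by omega), Function.update_of_ne (by omega)]
            exact hhi x (by omega)
        rw [e] at h4
        exact ((h1.trans h2).trans h3).trans h4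
      | false =>
        have h3 : Reach (topCode k PT) (tst k PT 1, Function.update ρ 2 (bit dec (σ 0) - 1))
            (start k PT .rej, Function.update ρ 2 (bit dec (σ 0) - 1)) :=
          Reach.one (by simp [stepM, topCode, tst, bit, hd])
        have h4 := Prog.reach_eval (wf_prog hPT.wf .rej) (emb (k := k) (PT := PT) .rej)
          (Function.update ρ 2 (bit dec (σ 0) - 1))
        have e : (prog k PT .rej).eval (Function.update ρ 2 (bit dec (σ 0) - 1)) =
            Function.update (0 : Regs) 0 (σ 0) := by
          funext x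
          show (clrs _).eval _ x = _
          rw [eval_clrs]
          simp only [List.mem_filter, List.mem_range, decide_eq_true_eq]
          by_cases h0 : x = 0
          · subst h0; simp [hρ]
          · rw [Function.update_of_ne h0]
            split_ifs with h
            · rfl
            · rw [Function.update_of_ne (by omega)]
              exact hhi x (by omega)
        rw [e] at h4
        simp only [Bool.false_eq_true, if_false]
        exact ((h1.trans h2).trans h3).trans h4

/-- Every state with every content reaches a final state. -/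
lemma halts (hPT : Computes (fun v : List.Vector ℕ 2 => T (v.get 0) (v.get 1)) ![0, 1] 2 3 PT)
    (hT : ∀ c s, T c s ≠ 0 → T c s = bit dec c) (hT' : ∀ c, ∃ s₀, ∀ s, s₀ ≤ s → T c s ≠ 0) :
    ∀ (q : St k PT) {σ : Regs}, (∀ x, nReg PT ≤ x → σ x = 0) →
      ∃ j σ', Reach (topCode k PT) (q, σ) (.inl j, σ') := by
  have hreg : ∀ b, ∀ x, nReg PT ≤ x → x ∉ (prog k PT b).regs := fun b x hx h => by
    have := regs_prog (fun x h => lt_nReg PT h) x h; omega
  have hsimple : ∀ b, b ≠ .head → ∀ (s : (prog k PT b).State) (σ : Regs),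
      ∃ j σ', Reach (topCode k PT) (.inr (.inr (.inl ⟨b, s⟩)), σ) (.inl j, σ') := by
    intro b hb s σ
    obtain ⟨σ', h, -⟩ := Prog.exits (wf_prog hPT.wf b) (emb b) s σ
    cases b with
    | app i => exact ⟨_, σ', h⟩
    | head => exact absurd rfl hb
    | rej => exact ⟨_, σ', h⟩
    | accept => exact ⟨_, σ', h⟩
  have hhead : ∀ σ : Regs, (∀ x, nReg PT ≤ x → σ x = 0) →
      ∃ j σ', Reach (topCode k PT) (start k PT .head, σ) (.inl j, σ') := by
    intro σ hσ
    have := reach_head (k := k) hPT hT hT' hσ
    split_ifs at this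
    · exact ⟨_, _, this⟩
    · exact ⟨_, _, this⟩
  have hrej : ∀ σ, ∃ j σ', Reach (topCode k PT) (start k PT .rej, σ) (.inl j, σ') :=
    fun σ => hsimple .rej (by simp) _ σ
  have hacc : ∀ σ, ∃ j σ', Reach (topCode k PT) (start k PT .accept, σ) (.inl j, σ') :=
    fun σ => hsimple .accept (by simp) _ σ
  have := four_le_nReg PT
  have ht1 : ∀ σ, ∃ j σ', Reach (topCode k PT) (tst k PT 1, σ) (.inl j, σ') := by
    intro σ
    by_cases h : σ 2 = 0
    · obtain ⟨j, σ', h'⟩ := hrej σ
      exact ⟨j, σ', (Reach.one (by simp [stepM, topCode, tst, h])).trans h'⟩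
    · obtain ⟨j, σ', h'⟩ := hacc (Function.update σ 2 (σ 2 - 1))
      exact ⟨j, σ', (Reach.one (by simp [stepM, topCode, tst, h])).trans h'⟩
  have ht2 : ∀ σ : Regs, (∀ x, nReg PT ≤ x → σ x = 0) →
      ∃ j σ', Reach (topCode k PT) (tst k PT 2, σ) (.inl j, σ') := fun σ hσ => by
    obtain ⟨j, σ', h'⟩ := hhead (Function.update σ 1 (σ 1 + 1))
      fun x hx => by rw [Function.update_of_ne (by omega)]; exact hσ x hx
    exact ⟨j, σ', (Reach.one (by simp [stepM, topCode, tst])).trans h'⟩
  have ht0 : ∀ σ : Regs, (∀ x, nReg PT ≤ x → σ x = 0) →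
      ∃ j σ', Reach (topCode k PT) (tst k PT 0, σ) (.inl j, σ') := fun σ hσ => by
    by_cases h : σ 2 = 0
    · obtain ⟨j, σ', h'⟩ := ht2 σ hσ
      exact ⟨j, σ', (Reach.one (by simp [stepM, topCode, tst, h])).trans h'⟩
    · obtain ⟨j, σ', h'⟩ := ht1 (Function.update σ 2 (σ 2 - 1))
      exact ⟨j, σ', (Reach.one (by simp [stepM, topCode, tst, h])).trans h'⟩
  intro q σ hσ
  rcases q with j | ⟨c, j⟩ | ⟨b, s⟩ | j
  · exact ⟨j, σ, Reach.refl _⟩
  · obtain ⟨h1, h2⟩ := reach_chk c hσ (nReg PT - j) j (by have := j.2; omega)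
    by_cases h : ∀ x, 0 < x → (j : ℕ) ≤ x → σ x = 0
    · cases c with
      | none =>
        obtain ⟨j', σ', h'⟩ := hhead σ hσ
        exact ⟨j', σ', (h1 h).trans h'⟩
      | some i =>
        obtain ⟨j', σ', h'⟩ := hsimple (.app i) (by simp) _ σ
        exact ⟨j', σ', (h1 h).trans h'⟩
    · obtain ⟨σ', h'⟩ := h2 h
      exact ⟨_, σ', h'⟩
  · cases b with
    | head =>
      obtain ⟨σ', h, hfix⟩ := Prog.exits (wf_prog hPT.wf .head) (emb (k := k) .head) s σ
      obtain ⟨j, σ'', h'⟩ := ht0 σ' fun x hx => by rw [hfix x (hreg .head x hx)]; exact hσ x hx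
      exact ⟨j, σ'', h.trans h'⟩
    | app i => exact hsimple _ (by simp) s σ
    | rej => exact hsimple _ (by simp) s σ
    | accept => exact hsimple _ (by simp) s σ
  · fin_cases j
    · exact ht0 σ hσ
    · exact ht1 σ
    · exact ht2 σ hσ

end Vale.Agent.P193.Clapham.Mach
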