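import Vale.Agent.P193.Clapham.Spec
import Vale.Agent.P193.Clapham.Machine.Enc
import Vale.Agent.P193.Clapham.Machine.Top

/-!
P193, Clapham, computation layer: the table and the labels.
-/

namespace Vale.Agent.P193.Clapham.Mach

open scoped Classical

/-- Everything the table depends on. -/
structure Params (k : ℕ) (dec : ℕ → Bool) where
  PT : Prog
  T : ℕ → ℕ → ℕ
  hPT : Computes (fun v : List.Vector ℕ 2 => T (v.get 0) (v.get 1)) ![0, 1] 2 3 PT
  sound : ∀ c s, T c s ≠ 0 → T c s = bit dec c
  complete : ∀ c, ∃ s₀, ∀ s, s₀ ≤ s → T c s ≠ 0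

lemma exists_params (k : ℕ) {dec : ℕ → Bool} (hd : Computable dec) : Nonempty (Params k dec) := by
  obtain ⟨T, hp, h1, h2⟩ := exists_clock hd
  obtain ⟨PT, hPT⟩ := computes hp ![0, 1] 2 3 (fun i => by fin_cases i <;> simp) (by norm_num)
  exact ⟨⟨PT, T, hPT, h1, h2⟩⟩

variable {k : ℕ} {dec : ℕ → Bool} (P : Params k dec)

namespace Params

/-- The number of states. -/
noncomputable def size : ℕ := Fintype.card (St k P.PT)

/-- The numbering of states. -/
noncomputable def num' : St k P.PT ≃ Fin P.size := Fintype.equivFin _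

/-- The number of a configuration. -/
noncomputable def cfg (q : St k P.PT) (y : ℕ) : ℕ := num P.num' q y

/-- The step. -/
noncomputable def next : ℕ → ℕ := stepN (topCode k P.PT) P.num'

lemma size_pos : 0 < P.size := Fintype.card_pos_iff.2 ⟨inn k P.PT⟩

lemma hregs : ∀ q : St k P.PT, ∀ r ∈ (topCode k P.PT q).regs, r < nReg P.PT :=
  regs_top fun _ h => lt_nReg P.PT h

lemma zero_lt_nReg : 0 < nReg P.PT := by have := four_le_nReg P.PT; omega

lemma halting (z : ℕ) :
    ∃ n, Terminal (topCode k P.PT) P.num' (P.next^[n] z) := by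
  obtain ⟨q, y, rfl⟩ := exists_num P.num' P.size_pos z
  rcases Nat.eq_zero_or_pos y with rfl | hy
  · exact ⟨0, q, 0, rfl, Or.inr rfl⟩
  obtain ⟨σ, co, hσ, hco, rfl⟩ := exists_decomp (nReg P.PT) hy
  obtain ⟨j, σ', h⟩ := Mach.halts P.hPT P.sound P.complete q hσ
  obtain ⟨n, hn⟩ := sim_reach (topCode k P.PT) P.num' P.hregs hco h
  exact ⟨n, .inl j, _, hn, Or.inl rfl⟩

/-- The final configuration. -/
noncomputable def fin (z : ℕ) : ℕ := P.next^[Nat.find (P.halting z)] z

lemma fin_eq {z n : ℕ} (h : Terminal (topCode k P.PT) P.num' (P.next^[n] z)) :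
    P.fin z = P.next^[n] z :=
  terminal_unique _ _ (Nat.find_spec (P.halting z)) h

lemma fin_next (z : ℕ) : P.fin (P.next z) = P.fin z := by
  have h : Terminal (topCode k P.PT) P.num' (P.next^[Nat.find (P.halting z)] (P.next z)) := by
    have h2 := Nat.find_spec (P.halting z)
    rw [← Function.iterate_succ_apply, Function.iterate_succ_apply',
      show P.next (P.next^[Nat.find (P.halting z)] z) = _ from terminal_fixed _ _ h2]
    exact h2
  rw [P.fin_eq h, ← Function.iterate_succ_apply, Function.iterate_succ_apply']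
  exact terminal_fixed _ _ (Nat.find_spec (P.halting z))

lemma fin_zero (q : St k P.PT) : P.fin (P.cfg q 0) = P.cfg q 0 :=
  P.fin_eq (n := 0) ⟨q, 0, rfl, Or.inr rfl⟩

lemma fin_inl (j : Fin 3) (y : ℕ) : P.fin (P.cfg (.inl j) y) = P.cfg (.inl j) y :=
  P.fin_eq (n := 0) ⟨.inl j, y, rfl, Or.inl rfl⟩

lemma fin_reach {co : ℕ} (hco : Cofree (nReg P.PT) co) {x : St k P.PT × Regs} {j : Fin 3}
    {σ' : Regs} (h : Reach (topCode k P.PT) x (.inl j, σ')) :
    P.fin (P.cfg x.1 (co * enc (nReg P.PT) x.2)) = P.cfg (.inl j) (co * enc (nReg P.PT) σ') := by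
  obtain ⟨n, hn⟩ := sim_reach (topCode k P.PT) P.num' P.hregs hco h
  have hn' : P.next^[n] (P.cfg x.1 (co * enc (nReg P.PT) x.2)) =
      P.cfg (.inl j) (co * enc (nReg P.PT) σ') := hn
  rw [P.fin_eq (n := n) (by rw [hn']; exact ⟨.inl j, _, rfl, Or.inl rfl⟩), hn']

/-! ### Labels -/

/-- The label of a final configuration. -/
noncomputable def lab (w : ℕ) : Option ℕ :=
  if w % P.size = P.num' (inn k P.PT) ∧ w / P.size ≠ 0 ∧ w / P.size ∣ pr 0 ^ (w / P.size) then
    some (Nat.log (pr 0) (w / P.size))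
  else if w % P.size = P.num' (accs k P.PT) ∧ w / P.size = 1 then some 0 else none

/-- The label of a configuration. -/
noncomputable def V (z : ℕ) : Option ℕ := P.lab (P.fin z)

lemma lab_cfg (q : St k P.PT) (y : ℕ) :
    P.lab (P.cfg q y) = if q = inn k P.PT ∧ y ≠ 0 ∧ y ∣ pr 0 ^ y then some (Nat.log (pr 0) y)
      else if q = accs k P.PT ∧ y = 1 then some 0 else none := by
  have hq : ∀ q' : St k P.PT, ((P.num' q : ℕ) = P.num' q') ↔ q = q' := fun q' => by
    rw [← Fin.ext_iff, P.num'.injective.eq_iff]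
  simp only [lab, cfg, num_mod, num_div, hq]

lemma lab_inn_pow (c : ℕ) : P.lab (P.cfg (inn k P.PT) (pr 0 ^ c)) = some c := by
  rw [lab_cfg, if_pos ⟨rfl, (pow_pos (prime_pr 0).pos c).ne',
    pow_dvd_pow _ (Nat.lt_pow_self (prime_pr 0).one_lt).le⟩, Nat.log_pow (prime_pr 0).one_lt]

lemma eq_of_lab {q : St k P.PT} {y c : ℕ} (h : P.lab (P.cfg q y) = some c) :
    (q = inn k P.PT ∧ y = pr 0 ^ c) ∨ (q = accs k P.PT ∧ y = 1 ∧ c = 0) := by
  rw [lab_cfg] at h
  split_ifs at h with h1 h2
  · obtain ⟨i, -, hi⟩ := (Nat.dvd_prime_pow (prime_pr 0)).1 h1.2.2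
    rw [hi, Nat.log_pow (prime_pr 0).one_lt] at h
    exact Or.inl ⟨h1.1, by rw [hi, Option.some_injective _ h]⟩
  · exact Or.inr ⟨h2.1, h2.2, (Option.some_injective _ h).symm⟩

lemma lab_zero (q : St k P.PT) : P.lab (P.cfg q 0) = none := by
  rw [lab_cfg]; simp

lemma lab_dead (y : ℕ) : P.lab (P.cfg (dead k P.PT) y) = none := by
  rw [lab_cfg]; simp [dead, inn, accs]

lemma V_zero (q : St k P.PT) : P.V (P.cfg q 0) = none := by
  rw [V, fin_zero, lab_zero]

lemma V_inl (j : Fin 3) (y : ℕ) : P.V (P.cfg (.inl j) y) = P.lab (P.cfg (.inl j) y) := by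
  rw [V, fin_inl]

lemma V_next (z : ℕ) : P.V (P.next z) = P.V z := by
  rw [V, V, fin_next]

lemma enc_single (c : ℕ) : enc (nReg P.PT) (Function.update (0 : Regs) 0 c) = pr 0 ^ c := by
  unfold enc
  rw [Finset.prod_eq_single 0]
  · simp
  · intro b _ hb; simp [hb]
  · intro h; exact absurd (Finset.mem_range.2 P.zero_lt_nReg) h

lemma enc_zero : enc (nReg P.PT) (0 : Regs) = 1 := by simp [enc]

lemma cofree_eq_one {co c i : ℕ} (hco : Cofree (nReg P.PT) co) (h : co * pr 0 ^ i = pr 0 ^ c) :
    co = 1 ∧ i = c := by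
  obtain ⟨j, -, rfl⟩ := (Nat.dvd_prime_pow (prime_pr 0)).1 (Dvd.intro _ h)
  obtain rfl : j = 0 := by
    by_contra hj
    exact hco.2 0 P.zero_lt_nReg (dvd_pow_self _ hj)
  refine ⟨pow_zero _, Nat.pow_right_injective (prime_pr 0).two_le ?_⟩
  simpa using h

lemma lab_inn_co {co : ℕ} (hco : Cofree (nReg P.PT) co) (c : ℕ) :
    P.lab (P.cfg (inn k P.PT) (co * pr 0 ^ c)) = if co = 1 then some c else none := by
  split_ifs with h
  · rw [h, one_mul, lab_inn_pow]
  · cases hl : P.lab (P.cfg (inn k P.PT) (co * pr 0 ^ c)) with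
    | none => rfl
    | some c' =>
      rcases P.eq_of_lab hl with ⟨-, he⟩ | ⟨he, -⟩
      · exact absurd (P.cofree_eq_one hco he).1 h
      · simp [inn, accs] at he

lemma lab_inn_dirty {co : ℕ} (hco : Cofree (nReg P.PT) co) {σ : Regs} (hσ : Supp (nReg P.PT) σ)
    (hd : ¬ ∀ x, 0 < x → σ x = 0) :
    P.lab (P.cfg (inn k P.PT) (co * enc (nReg P.PT) σ)) = none := by
  cases hl : P.lab (P.cfg (inn k P.PT) (co * enc (nReg P.PT) σ)) with
  | none => rfl
  | some c =>
    rcases P.eq_of_lab hl with ⟨-, he⟩ | ⟨he, -⟩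
    · refine absurd (fun x hx => ?_) hd
      by_contra hne
      have hxR : x < nReg P.PT := by
        by_contra hge
        exact hne (hσ x (not_lt.1 hge))
      have := (dvd_enc_iff hxR hco σ).2 hne
      rw [he] at this
      have := pr_injective ((Nat.prime_dvd_prime_iff_eq (prime_pr x) (prime_pr 0)).1
        ((prime_pr x).dvd_of_dvd_pow this))
      omega
    · simp [inn, accs] at he

/-- The effect of a command on labels. -/
lemma V_chk (c : Option (Fin k)) (y : ℕ) :
    LabelRel dec c (P.V (P.cfg (inn k P.PT) y)) (P.V (P.cfg (chk k P.PT c) y)) := by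
  rcases Nat.eq_zero_or_pos y with rfl | hy
  · rw [V_zero, V_zero]; cases c <;> rfl
  obtain ⟨σ, co, hσ, hco, rfl⟩ := exists_decomp (nReg P.PT) hy
  rw [show P.V (P.cfg (inn k P.PT) _) = P.lab _ from P.V_inl 0 _]
  obtain ⟨h1, h2⟩ := reach_command c hσ
  by_cases hcl : ∀ x, 0 < x → σ x = 0
  · have e : enc (nReg P.PT) σ = pr 0 ^ σ 0 := by
      rw [← P.enc_single (σ 0)]
      congr 1
      funext x
      rcases Nat.eq_zero_or_pos x with rfl | hx
      · simp
      · rw [Function.update_of_ne hx.ne', hcl x hx]; rfl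
    show LabelRel dec c (P.lab (P.cfg (inn k P.PT) _)) _
    rw [e, lab_inn_co P hco]
    cases c with
    | some i =>
      have hr := (h1 hcl).trans (reach_app P.hPT.wf i hcl)
      have ev := P.fin_reach hco hr
      dsimp only at ev
      rw [e] at ev
      rw [V, ev]
      have e' : enc (nReg P.PT) (Function.update σ 0 (k * σ 0 + i + 1)) =
          pr 0 ^ (k * σ 0 + i + 1) := by
        rw [← P.enc_single]
        congr 1
        funext x
        rcases Nat.eq_zero_or_pos x with rfl | hx
        · simp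
        · rw [Function.update_of_ne hx.ne', Function.update_of_ne hx.ne', hcl x hx]; rfl
      rw [e', show (Sum.inl 0 : St k P.PT) = inn k P.PT from rfl, lab_inn_co P hco]
      split_ifs <;> rfl
    | none =>
      have hr := (h1 hcl).trans (reach_head P.hPT P.sound P.complete hσ)
      cases hd : dec (σ 0) with
      | true =>
        rw [hd, if_pos rfl] at hr
        have ev := P.fin_reach hco hr
        dsimp only at ev
        rw [e] at ev
        rw [V, ev, enc_zero, mul_one, show (Sum.inl 1 : St k P.PT) = accs k P.PT from rfl,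
          lab_cfg]
        by_cases hc1 : co = 1
        · rw [if_pos hc1, if_neg (by simp [inn, accs]), if_pos ⟨rfl, hc1⟩]
          exact Or.inr ⟨hd, rfl⟩
        · rw [if_neg hc1, if_neg (by simp [inn, accs]), if_neg (fun h => hc1 h.2)]
          rfl
      | false =>
        rw [hd, if_neg (by simp)] at hr
        have ev := P.fin_reach hco hr
        dsimp only at ev
        rw [e] at ev
        rw [V, ev, enc_single, show (Sum.inl 0 : St k P.PT) = inn k P.PT from rfl, lab_inn_co P hco]
        split_ifs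
        · exact Or.inl rfl
        · rfl
  · obtain ⟨σ', hr⟩ := h2 hcl
    have ev := P.fin_reach hco hr
    dsimp only at ev
    show LabelRel dec c (P.lab (P.cfg (inn k P.PT) _)) _
    rw [P.lab_inn_dirty hco hσ hcl, V, ev,
      show (Sum.inl 2 : St k P.PT) = dead k P.PT from rfl, lab_dead]
    cases c <;> rfl

/-! ### The table -/

/-- The divisor, multiplier and successors. -/
noncomputable def rw' (q : St k P.PT) : ℕ × ℕ × St k P.PT × St k P.PT := row (topCode k P.PT) q

lemma bound {d e' j : ℕ} (hd : e' < d) (hj : j < P.size) : P.size * e' + j < P.size * d :=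
  calc P.size * e' + j < P.size * e' + P.size := by omega
    _ = P.size * (e' + 1) := by ring
    _ ≤ P.size * d := Nat.mul_le_mul_left _ hd

/-- The edge of a divisible value. -/
noncomputable def posEdge (q : St k P.PT) : Aff where
  r := P.num' q
  m := P.size * (P.rw' q).1
  s := P.num' (P.rw' q).2.2.1
  n := P.size * (P.rw' q).2.1
  hr := by simpa [rw'] using P.bound (e' := 0) (row_pos _ q).1 (P.num' q).2
  hs := by simpa [rw'] using P.bound (e' := 0) (row_pos _ q).2 (P.num' _).2

/-- The edge of a residue. -/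
noncomputable def altEdge (q : St k P.PT) (i : Fin (P.rw' q).1) : Aff where
  r := P.size * i + P.num' q
  m := P.size * (P.rw' q).1
  s := P.size * i + P.num' (P.rw' q).2.2.2
  n := P.size * (P.rw' q).1
  hr := P.bound i.2 (P.num' q).2
  hs := P.bound i.2 (P.num' _).2

/-- The edge of a command. -/
noncomputable def cmdEdge (c : Option (Fin k)) : Aff where
  r := P.num' (inn k P.PT)
  m := P.size
  s := P.num' (chk k P.PT c)
  n := P.size
  hr := (P.num' _).2
  hs := (P.num' _).2

/-- The table. -/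
noncomputable def tbl : Table k :=
  ((Finset.univ : Finset (St k P.PT)).toList.flatMap fun q =>
      ((P.posEdge q, none) ::
        ((List.finRange (P.rw' q).1).filter fun i : Fin (P.rw' q).1 => (i : ℕ) ≠ 0).map fun i => (P.altEdge q i, none))) ++
    (cmdEdge P none, none) :: (List.finRange k).map fun i => (cmdEdge P (some i), some i)

lemma src_pos (q : St k P.PT) (j : ℕ) :
    (P.posEdge q).src j = P.cfg q ((P.rw' q).1 * j) := by
  simp only [posEdge, Aff.src, cfg, num]; ring

lemma tgt_pos (q : St k P.PT) (j : ℕ) :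
    (P.posEdge q).tgt j = P.cfg (P.rw' q).2.2.1 ((P.rw' q).2.1 * j) := by
  simp only [posEdge, Aff.tgt, cfg, num]; ring

lemma src_alt (q : St k P.PT) (i : Fin (P.rw' q).1) (j : ℕ) :
    (P.altEdge q i).src j = P.cfg q (i + (P.rw' q).1 * j) := by
  simp only [altEdge, Aff.src, cfg, num]; ring

lemma tgt_alt (q : St k P.PT) (i : Fin (P.rw' q).1) (j : ℕ) :
    (P.altEdge q i).tgt j = P.cfg (P.rw' q).2.2.2 (i + (P.rw' q).1 * j) := by
  simp only [altEdge, Aff.tgt, cfg, num]; ring

lemma src_cmd (c : Option (Fin k)) (j : ℕ) : (P.cmdEdge c).src j = P.cfg (inn k P.PT) j := by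
  simp only [cmdEdge, Aff.src, cfg, num]; ring

lemma tgt_cmd (c : Option (Fin k)) (j : ℕ) : (P.cmdEdge c).tgt j = P.cfg (chk k P.PT c) j := by
  simp only [cmdEdge, Aff.tgt, cfg, num]; ring

lemma mem_tbl {e : Aff × Option (Fin k)} : e ∈ P.tbl ↔
    (∃ q, e = (P.posEdge q, none) ∨
      ∃ i : Fin (P.rw' q).1, (i : ℕ) ≠ 0 ∧ e = (P.altEdge q i, none)) ∨
      ∃ c, e = (P.cmdEdge c, c) := by
  simp only [tbl, List.mem_append, List.mem_flatMap, Finset.mem_toList, Finset.mem_univ, true_and,
    List.mem_cons, List.mem_map, List.mem_filter, List.mem_finRange, decide_eq_true_eq,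
    eq_comm (b := e)]
  constructor
  · rintro (h | h | ⟨i, h⟩)
    · exact Or.inl h
    · exact Or.inr ⟨none, h⟩
    · exact Or.inr ⟨some i, h⟩
  · rintro (h | ⟨_ | i, h⟩)
    · exact Or.inl h
    · exact Or.inr (Or.inl h)
    · exact Or.inr (Or.inr ⟨i, h⟩)

lemma next_cfg (q : St k P.PT) {y : ℕ} (hy : y ≠ 0) :
    P.next (P.cfg q y) = if (P.rw' q).1 ∣ y
      then P.cfg (P.rw' q).2.2.1 (y / (P.rw' q).1 * (P.rw' q).2.1)
      else P.cfg (P.rw' q).2.2.2 y := by
  show stepN _ _ _ = _
  rw [cfg, stepN_num, if_neg hy]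
  rfl

lemma plain_eq {u v : Option ℕ} (h : v = u) : LabelRel (k := k) dec none u v := by
  rw [h]
  cases u
  · rfl
  · exact Or.inl rfl

lemma step_label : ∀ e ∈ P.tbl, ∀ j, LabelRel dec e.2 (P.V (e.1.src j)) (P.V (e.1.tgt j)) := by
  intro e he j
  rcases P.mem_tbl.1 he with ⟨q, rfl | ⟨i, hi, rfl⟩⟩ | ⟨c, rfl⟩
  · rw [src_pos, tgt_pos]
    refine plain_eq ?_
    rcases Nat.eq_zero_or_pos j with rfl | hj
    · rw [mul_zero, mul_zero, V_zero, V_zero]
    · have hd : 0 < (P.rw' q).1 := (row_pos _ q).1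
      rw [← P.V_next (P.cfg q _), P.next_cfg q (Nat.mul_pos hd hj).ne', if_pos (dvd_mul_right _ _),
        Nat.mul_div_cancel_left _ hd, mul_comm j]
  · rw [src_alt, tgt_alt]
    refine plain_eq ?_
    have : ¬ (P.rw' q).1 ∣ (i : ℕ) + (P.rw' q).1 * j := by
      rw [Nat.dvd_add_left (dvd_mul_right _ _)]
      exact Nat.not_dvd_of_pos_of_lt (Nat.pos_of_ne_zero hi) i.2
    rw [← P.V_next (P.cfg q _), P.next_cfg q (by omega), if_neg this]
  · rw [src_cmd, tgt_cmd]
    exact P.V_chk c j

/-- A step is an edge. -/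
lemma exists_edge (z : ℕ) : P.next z = z ∨
    ∃ (e : Aff) (j : ℕ), (e, (none : Option (Fin k))) ∈ P.tbl ∧ e.src j = z ∧ e.tgt j = P.next z := by
  obtain ⟨q, y, rfl⟩ := exists_num P.num' P.size_pos z
  rcases eq_or_ne y 0 with rfl | hy
  · exact Or.inl (terminal_fixed _ _ ⟨q, 0, rfl, Or.inr rfl⟩)
  refine Or.inr ?_
  have hd : 0 < (P.rw' q).1 := (row_pos _ q).1
  have hn := P.next_cfg q hy
  by_cases h : (P.rw' q).1 ∣ y
  · obtain ⟨j, rfl⟩ := h
    refine ⟨P.posEdge q, j, P.mem_tbl.2 (Or.inl ⟨q, Or.inl rfl⟩), P.src_pos q j, ?_⟩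
    rw [tgt_pos]
    exact Eq.symm (hn.trans (by rw [if_pos (dvd_mul_right _ _), Nat.mul_div_cancel_left _ hd, mul_comm j]))
  · refine ⟨P.altEdge q ⟨y % (P.rw' q).1, Nat.mod_lt _ hd⟩, y / (P.rw' q).1,
      P.mem_tbl.2 (Or.inl ⟨q, Or.inr ⟨_, fun h0 => h (Nat.dvd_of_mod_eq_zero h0), rfl⟩⟩), ?_, ?_⟩
    · rw [src_alt]
      simp only [Nat.mod_add_div]
      rfl
    · rw [tgt_alt]
      refine Eq.symm (hn.trans ?_)
      simp only [Nat.mod_add_div, if_neg h]

lemma conn_forward {a z : ℕ} {w : List (Fin k)} (h : Conn P.tbl a z w) (n : ℕ) :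
    Conn P.tbl a (P.next^[n] z) w := by
  induction n with
  | zero => exact h
  | succ n ih =>
    rw [Function.iterate_succ_apply']
    rcases P.exists_edge (P.next^[n] z) with he | ⟨e, j, he, hs, ht⟩
    · rw [he]; exact ih
    · rw [← ht]
      exact Conn.fwd he (by rw [hs]; exact ih)

lemma conn_backward {a : ℕ} {w : List (Fin k)} :
    ∀ (n : ℕ) {z : ℕ}, Conn P.tbl a (P.next^[n] z) w → Conn P.tbl a z w
  | 0, _, h => h
  | n + 1, z, h => by
    rw [Function.iterate_succ_apply] at h
    have h' := conn_backward n h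
    rcases P.exists_edge z with he | ⟨e, j, he, hs, ht⟩
    · rwa [he] at h'
    · rw [← hs]
      exact Conn.bwd he (by rw [ht]; exact h')

lemma cofree_one : Cofree (nReg P.PT) 1 := ⟨one_pos, fun r _ => not_pr_dvd_one r⟩

lemma conn_word : ∀ w : List (Fin k),
    Conn P.tbl (P.cfg (inn k P.PT) 1) (P.cfg (inn k P.PT) (pr 0 ^ code w)) w
  | [] => by simpa [code] using Conn.base
  | i :: w => by
    have h := conn_word w
    have hp : Conn P.tbl (P.cfg (inn k P.PT) 1) (P.cfg (chk k P.PT (some i)) (pr 0 ^ code w))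
        (i :: w) := by
      rw [← P.tgt_cmd (some i)]
      exact Conn.push (P.mem_tbl.2 (Or.inr ⟨some i, rfl⟩)) (by rw [src_cmd]; exact h)
    have hcl : ∀ x, 0 < x → Function.update (0 : Regs) 0 (code w) x = 0 := fun x hx => by
      rw [Function.update_of_ne hx.ne']; rfl
    have hr := ((reach_command (some i) (σ := Function.update (0 : Regs) 0 (code w))
      fun x hx => hcl x (by have := P.zero_lt_nReg; omega)).1 hcl).trans
      (reach_app P.hPT.wf i hcl)
    obtain ⟨n, hn⟩ := sim_reach (topCode k P.PT) P.num' P.hregs P.cofree_one hr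
    have := P.conn_forward hp n
    simp only [one_mul, Function.update_self, Function.update_idem, enc_single] at hn
    unfold next cfg at this
    rw [hn] at this
    exact this

lemma exists_code (hk : 0 < k) : ∀ c : ℕ, ∃ w : List (Fin k), code w = c := by
  intro c
  induction c using Nat.strong_induction_on with
  | _ c ih =>
    rcases Nat.eq_zero_or_pos c with rfl | hc
    · exact ⟨[], rfl⟩
    · obtain ⟨w, hw⟩ := ih ((c - 1) / k) (by have := Nat.div_le_self (c - 1) k; omega)
      refine ⟨⟨(c - 1) % k, Nat.mod_lt _ hk⟩ :: w, ?_⟩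
      show k * code w + (c - 1) % k + 1 = c
      rw [hw, Nat.div_add_mod]
      omega

lemma connected (hk : 0 < k) (z : ℕ) (hz : (P.V z).isSome = true) :
    ∃ w, Conn P.tbl (P.cfg (inn k P.PT) 1) z w ∨ Conn P.tbl (P.cfg (accs k P.PT) 1) z w := by
  obtain ⟨c, hc⟩ := Option.isSome_iff_exists.1 hz
  obtain ⟨q, y, hw⟩ := exists_num P.num' P.size_pos (P.fin z)
  rw [V, hw] at hc
  rcases P.eq_of_lab hc with ⟨rfl, rfl⟩ | ⟨rfl, rfl, -⟩
  · obtain ⟨w, rfl⟩ := exists_code hk c
    refine ⟨w, Or.inl (P.conn_backward (Nat.find (P.halting z)) ?_)⟩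
    show Conn _ _ (P.fin z) _
    rw [hw]
    exact P.conn_word w
  · refine ⟨[], Or.inr (P.conn_backward (Nat.find (P.halting z)) ?_)⟩
    show Conn _ _ (P.fin z) _
    rw [hw]
    exact Conn.base

lemma accepts (w : List (Fin k)) (hw : dec (code w) = true) :
    Conn P.tbl (P.cfg (inn k P.PT) 1) (P.cfg (accs k P.PT) 1) w := by
  have hp : Conn P.tbl (P.cfg (inn k P.PT) 1) (P.cfg (chk k P.PT none) (pr 0 ^ code w)) w := by
    rw [← P.tgt_cmd none]
    exact Conn.fwd (P.mem_tbl.2 (Or.inr ⟨none, rfl⟩)) (by rw [src_cmd]; exact P.conn_word w)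
  have hcl : ∀ x, 0 < x → Function.update (0 : Regs) 0 (code w) x = 0 := fun x hx => by
    rw [Function.update_of_ne hx.ne']; rfl
  have hsup : ∀ x, nReg P.PT ≤ x → Function.update (0 : Regs) 0 (code w) x = 0 := fun x hx =>
    hcl x (by have := P.zero_lt_nReg; omega)
  have hr := ((reach_command (k := k) none hsup).1 hcl).trans
    (reach_head P.hPT P.sound P.complete hsup)
  rw [Function.update_self, hw, if_pos rfl] at hr
  obtain ⟨n, hn⟩ := sim_reach (topCode k P.PT) P.num' P.hregs P.cofree_one hr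
  have := P.conn_forward hp n
  simp only [one_mul, enc_single, enc_zero] at hn
  unfold next cfg at this
  rw [hn] at this
  exact this

/-! ### Computability -/

lemma primrec_fin : Primrec fun z : ℕ => (⟨z % P.size, Nat.mod_lt _ P.size_pos⟩ : Fin P.size) :=
  Primrec.fin_val_iff.1 (Primrec.nat_mod.comp .id (.const _))

lemma primrec_state {α : Type} [Primcodable α] (f : St k P.PT → α) :
    Primrec fun z : ℕ => f (P.num'.symm ⟨z % P.size, Nat.mod_lt _ P.size_pos⟩) :=
  (Primrec.dom_finite fun i => f (P.num'.symm i)).comp P.primrec_fin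

lemma primrec_next : Primrec P.next := by
  have hy : Primrec fun z : ℕ => z / P.size := Primrec.nat_div.comp .id (.const _)
  have hd := P.primrec_state fun q => (P.rw' q).1
  have hm := P.primrec_state fun q => (P.rw' q).2.1
  have ha := P.primrec_state fun q => (P.num' (P.rw' q).2.2.1 : ℕ)
  have hb := P.primrec_state fun q => (P.num' (P.rw' q).2.2.2 : ℕ)
  refine Primrec.of_eq (Primrec.ite (Primrec.eq.comp hy (.const 0)) .id
    (Primrec.ite (Primrec.eq.comp (Primrec.nat_mod.comp hy hd) (.const 0))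
      (Primrec.nat_add.comp (Primrec.nat_mul.comp (.const P.size)
        (Primrec.nat_mul.comp (Primrec.nat_div.comp hy hd) hm)) ha)
      (Primrec.nat_add.comp (Primrec.nat_mul.comp (.const P.size) hy) hb))) fun z => ?_
  simp only [next, stepN, dif_pos P.size_pos, num, rw', Nat.dvd_iff_mod_eq_zero, id_eq]
  congr!

lemma computable_fin : Computable P.fin := by
  have hterm : Primrec fun w : ℕ => decide (w / P.size = 0) ||
      (match topCode k P.PT (P.num'.symm ⟨w % P.size, Nat.mod_lt _ P.size_pos⟩) with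
        | .halt => true | _ => false) :=
    Primrec.or.comp ((Primrec.eq.comp (Primrec.nat_div.comp .id (.const _)) (.const 0)).decide)
      (P.primrec_state fun q => match topCode k P.PT q with | .halt => true | _ => false)
  have hit : Primrec₂ fun z n : ℕ => P.next^[n] z :=
    Primrec.nat_iterate .snd .fst (P.primrec_next.comp .snd).to₂
  have hp : Partrec₂ fun z n : ℕ => Part.some (decide (P.next^[n] z / P.size = 0) ||
      (match topCode k P.PT (P.num'.symm ⟨P.next^[n] z % P.size, Nat.mod_lt _ P.size_pos⟩) with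
        | .halt => true | _ => false)) :=
    (hterm.comp₂ hit).to_comp.partrec₂
  have hT : ∀ w, (decide (w / P.size = 0) ||
      (match topCode k P.PT (P.num'.symm ⟨w % P.size, Nat.mod_lt _ P.size_pos⟩) with
        | .halt => true | _ => false)) = true ↔ Terminal (topCode k P.PT) P.num' w := by
    intro w
    obtain ⟨q, y, rfl⟩ := exists_num P.num' P.size_pos w
    have e1 : P.num'.symm ⟨num P.num' q y % P.size, Nat.mod_lt _ P.size_pos⟩ = q := by
      rw [Equiv.symm_apply_eq]; exact Fin.ext (num_mod P.num' q y)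
    rw [num_div, e1, Bool.or_eq_true, decide_eq_true_eq]
    constructor
    · rintro (h | h)
      · exact ⟨q, y, rfl, Or.inr h⟩
      · cases hc : topCode k P.PT q <;> simp [hc] at h
        exact ⟨q, y, rfl, Or.inl hc⟩
    · rintro ⟨q', y', he, h⟩
      obtain ⟨rfl, rfl⟩ := num_inj P.num' he
      rcases h with h | h
      · exact Or.inr (by rw [h])
      · exact Or.inl h
  have hfind : Computable fun z => Nat.find (P.halting z) :=
    (Partrec.rfind hp).of_eq fun z => by
      refine Part.eq_some_iff.2 (Nat.mem_rfind.2 ⟨?_, fun {m} hm => ?_⟩)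
      · exact Part.mem_some_iff.2 ((hT _).2 (Nat.find_spec (P.halting z))).symm
      · exact Part.mem_some_iff.2 (Bool.eq_false_iff.2 fun h => Nat.find_min (P.halting z) hm ((hT _).1 h)).symm
  exact hit.to_comp.comp Computable.id hfind

lemma computable_dom : ComputablePred fun z => (P.V z).isSome = true := by
  have hpow : Primrec₂ ((· ^ ·) : ℕ → ℕ → ℕ) := Primrec₂.unpaired'.1 Nat.Primrec.pow
  have hy : Primrec fun w : ℕ => w / P.size := Primrec.nat_div.comp .id (.const _)
  have hm : Primrec fun w : ℕ => w % P.size := Primrec.nat_mod.comp .id (.const _)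
  have hin : PrimrecPred fun w : ℕ => w % P.size = (P.num' (inn k P.PT) : ℕ) :=
    Primrec.eq.comp hm (.const _)
  have hacc : PrimrecPred fun w : ℕ => w % P.size = (P.num' (accs k P.PT) : ℕ) :=
    Primrec.eq.comp hm (.const _)
  have hone : PrimrecPred fun w : ℕ => w / P.size = 1 := Primrec.eq.comp hy (.const _)
  have hnz : PrimrecPred fun w : ℕ => w / P.size = 0 := Primrec.eq.comp hy (.const _)
  have hdvd : PrimrecPred fun w : ℕ => pr 0 ^ (w / P.size) % (w / P.size) = 0 :=
    Primrec.eq.comp (Primrec.nat_mod.comp (hpow.comp (.const _) hy) hy) (.const 0)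
  let acc : ℕ → Bool := fun w =>
    if w % P.size = (P.num' (accs k P.PT) : ℕ) then (if w / P.size = 1 then true else false)
    else false
  let f : ℕ → Bool := fun w =>
    if w % P.size = (P.num' (inn k P.PT) : ℕ) then
      (if w / P.size = 0 then acc w else
        if pr 0 ^ (w / P.size) % (w / P.size) = 0 then true else acc w)
    else acc w
  have hacc' : Primrec acc := Primrec.ite hacc (Primrec.ite hone (.const _) (.const _)) (.const _)
  have hf : Primrec f := Primrec.ite hin (Primrec.ite hnz hacc' (Primrec.ite hdvd (.const _) hacc'))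
    hacc'
  refine ComputablePred.computable_iff.2 ⟨fun z => f (P.fin z),
    hf.to_comp.comp P.computable_fin, funext fun z => propext ?_⟩
  show (P.lab (P.fin z)).isSome = true ↔ f (P.fin z) = true
  generalize P.fin z = w
  simp only [lab, f, acc, Nat.dvd_iff_mod_eq_zero]
  split_ifs <;> simp_all

/-- The machine. -/
noncomputable def machine (hk : 0 < k) : Machine k dec where
  tbl := P.tbl
  z₀ := P.cfg (inn k P.PT) 1
  z₁ := P.cfg (accs k P.PT) 1
  V := P.V
  computable_dom := P.computable_dom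
  label₀ := by
    rw [show P.V (P.cfg (inn k P.PT) 1) = P.lab (P.cfg (inn k P.PT) 1) from P.V_inl 0 1,
      ← pow_zero (pr 0), lab_inn_pow]
  label₁ := by
    rw [show P.V (P.cfg (accs k P.PT) 1) = P.lab (P.cfg (accs k P.PT) 1) from P.V_inl 1 1, lab_cfg,
      if_neg (by simp [inn, accs]), if_pos ⟨rfl, rfl⟩]
  step := P.step_label
  connected := P.connected hk
  accepts := P.accepts

end Params

end Vale.Agent.P193.Clapham.Mach

namespace Vale.Agent.P193.Clapham

/-- The computation layer. -/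
theorem machine : MachineStatement := fun k _ hk hd =>
  ⟨(Mach.exists_params k hd).some.machine hk⟩

end Vale.Agent.P193.Clapham
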